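import Vale.Agent.P297.H212.Camp.Deform
import Vale.Agent.P297.H637.Rel3

/-!
The relation for generic isotropic lines, over any field of values.
-/

set_option linter.unusedSectionVars false
set_option linter.style.haveILetI false

open IntermediateField Polynomial

namespace Vale.Agent.P297.H212.Camp

open Vale.Agent.P297 Vale.Agent.P297.Gen Vale.Agent.P297.Z3 Vale.Agent.P297.C8
open Vale.Agent.P297.H72 Vale.Agent.P297.H777 Vale.Agent.P297.H637

section trdeg

open scoped IntermediateField.algebraAdjoinAdjoin in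
theorem trdeg_cl0 {M : Type} [Field M] [Algebra ℂ M] {u : Fin 4 → M}
    (hu : AlgebraicIndependent ℂ u) : Algebra.trdeg ℂ (cl0 (Set.range u)) = 4 := by
  let B := Algebra.adjoin ℂ (Set.range u)
  let A := IntermediateField.adjoin ℂ (Set.range u)
  let F := algebraicClosure A M
  have h1 : Algebra.trdeg ℂ A + Algebra.trdeg A F = Algebra.trdeg ℂ F :=
    trdeg_add_eq ℂ A
  have h2 : Algebra.trdeg A F = 0 := trdeg_eq_zero
  rw [h2, add_zero] at h1
  haveI : Algebra.IsAlgebraic B A := IsLocalization.isAlgebraic _ (nonZeroDivisors B)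
  have h3 : Algebra.trdeg ℂ B + Algebra.trdeg B A = Algebra.trdeg ℂ A :=
    trdeg_add_eq ℂ B
  have h4 : Algebra.trdeg B A = 0 := trdeg_eq_zero
  rw [h4, add_zero] at h3
  have h5 : Algebra.trdeg ℂ B = 4 := by
    rw [← hu.aevalEquiv.trdeg_eq, MvPolynomial.trdeg_of_isDomain]
    simp
  change Algebra.trdeg ℂ F = 4
  rw [← h1, ← h3, h5]

end trdeg

section indep

variable {M : Type} [Field M] [Algebra ℂ M] {Q : Web}

/-- The coordinates of a generic member of the surface of conics are linearly independent. -/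
theorem lam_indep {a b : M} (hab : AlgebraicIndependent ℂ ![a, b]) (c : Fin 4 → ℂ)
    (h : ∑ i, lam a b i * algebraMap ℂ M (c i) = 0) : c = 0 := by
  have h20 := char_two M
  have ha : a ≠ 0 := hab.ne_zero 0
  have hb : b ≠ 0 := hab.ne_zero 1
  let p : MvPolynomial (Fin 2) ℂ :=
    MvPolynomial.C (2 * c 0) * (MvPolynomial.X 0 * MvPolynomial.X 1) +
    MvPolynomial.C (c 1) * (MvPolynomial.X 0 ^ 2 * MvPolynomial.X 1 + MvPolynomial.X 1) +
    MvPolynomial.C (c 2) * (MvPolynomial.X 0 * MvPolynomial.X 1 ^ 2 + MvPolynomial.X 0) +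
    MvPolynomial.C (c 3) * (MvPolynomial.X 0 ^ 2 * MvPolynomial.X 1 ^ 2 + 1)
  have hp : MvPolynomial.aeval ![a, b] p = 0 := by
    simp only [p, map_add, map_mul, map_pow, MvPolynomial.aeval_X, MvPolynomial.aeval_C,
      Matrix.cons_val_zero, Matrix.cons_val_one, map_one, map_ofNat]
    simp only [Fin.sum_univ_four, lam, Matrix.cons_val] at h
    have h1 : 2 * a * b * (1 * algebraMap ℂ M (c 0) + (a + a⁻¹) / 2 * algebraMap ℂ M (c 1) +
      (b + b⁻¹) / 2 * algebraMap ℂ M (c 2) + (a * b + (a * b)⁻¹) / 2 * algebraMap ℂ M (c 3)) = 0 := by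
      rw [h, mul_zero]
    have h2 : 2 * a * b * (1 * algebraMap ℂ M (c 0) + (a + a⁻¹) / 2 * algebraMap ℂ M (c 1) +
      (b + b⁻¹) / 2 * algebraMap ℂ M (c 2) + (a * b + (a * b)⁻¹) / 2 * algebraMap ℂ M (c 3)) =
      2 * algebraMap ℂ M (c 0) * (a * b) + algebraMap ℂ M (c 1) * (a ^ 2 * b + b) +
      algebraMap ℂ M (c 2) * (a * b ^ 2 + a) + algebraMap ℂ M (c 3) * (a ^ 2 * b ^ 2 + 1) := by
      field_simp
    rw [h2] at h1
    linear_combination h1
  have hp0 : p = 0 := by
    rw [algebraicIndependent_iff] at hab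
    exact hab p hp
  have hev : ∀ s t : ℂ, 2 * c 0 * (s * t) + c 1 * (s ^ 2 * t + t) + c 2 * (s * t ^ 2 + s) +
      c 3 * (s ^ 2 * t ^ 2 + 1) = 0 := by
    intro s t
    have h1 := congrArg (MvPolynomial.eval ![s, t]) hp0
    simp only [p, map_add, map_mul, map_pow, MvPolynomial.eval_X, MvPolynomial.eval_C,
      Matrix.cons_val_zero, Matrix.cons_val_one, map_one, map_zero] at h1
    exact h1
  have e3 : c 3 = 0 := by linear_combination hev 0 0
  have e1 : c 1 = 0 := by linear_combination hev 0 1 - hev 0 0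
  have e2 : c 2 = 0 := by linear_combination hev 1 0 - hev 0 0
  have e0 : c 0 = 0 := by
    have h1 := hev 1 1
    rw [e1, e2, e3] at h1
    linear_combination h1 / 2
  funext i
  fin_cases i
  · exact e0
  · exact e1
  · exact e2
  · exact e3

theorem MB_single_ne (hfin : ∀ o : Fin 4 → ℂ, qq Q o = 0 → o = 0) {a b : M}
    (hab : AlgebraicIndependent ℂ ![a, b]) (j : Fin 4) :
    MB Q a b (Pi.single j 1) (Pi.single j 1) ≠ 0 := by
  intro h0
  have h1 : ∀ {R : Type} [CommRing R] [Algebra ℂ R] (i : Fin 4),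
      qb Q (Pi.single j 1 : Fin 4 → R) (Pi.single j 1) i = algebraMap ℂ R (Q i j j) := by
    intro R _ _ i
    rw [qb_apply, Finset.sum_eq_single j, Finset.sum_eq_single j]
    · rw [Pi.single_eq_same, mul_one, mul_one]
    · intro b _ hb
      rw [Pi.single_eq_of_ne hb, mul_zero, mul_zero]
    · intro h
      exact absurd (Finset.mem_univ _) h
    · intro b _ hb
      refine Finset.sum_eq_zero fun c _ => ?_
      rw [Pi.single_eq_of_ne hb, zero_mul, mul_zero]
    · intro h
      exact absurd (Finset.mem_univ _) h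
  have h2 := lam_indep hab (fun i => Q i j j) (by
    rw [← h0]
    unfold MB
    refine Finset.sum_congr rfl fun i _ => ?_
    rw [h1])
  have h3 := hfin (Pi.single j 1) (by
    funext i
    change qb Q (Pi.single j 1 : Fin 4 → ℂ) (Pi.single j 1) i = 0
    rw [h1]
    have h4 := congrFun h2 i
    simp only [Pi.zero_apply] at h4
    rw [h4, map_zero])
  have h4 := congrFun h3 j
  rw [Pi.single_eq_same, Pi.zero_apply] at h4
  exact one_ne_zero h4

theorem lam_mem {E : IntermediateField ℂ M} {a b : M} (ha : a ∈ E) (hb : b ∈ E) (i : Fin 4) :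
    lam a b i ∈ E := by
  have h2 : (2 : M) ∈ E := by
    have := E.algebraMap_mem (2 : ℂ)
    rwa [map_ofNat] at this
  fin_cases i
  · exact one_mem _
  · exact div_mem (add_mem ha (inv_mem ha)) h2
  · exact div_mem (add_mem hb (inv_mem hb)) h2
  · exact div_mem (add_mem (mul_mem ha hb) (inv_mem (mul_mem ha hb))) h2

theorem MB_mem {E : IntermediateField ℂ M} {a b : M} (ha : a ∈ E) (hb : b ∈ E)
    {p q : Fin 4 → M} (hp : ∀ i, p i ∈ E) (hq : ∀ i, q i ∈ E) : MB Q a b p q ∈ E := by
  refine sum_mem fun i _ => mul_mem (lam_mem ha hb i) ?_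
  rw [qb_apply]
  exact sum_mem fun c _ => sum_mem fun d _ => mul_mem (E.algebraMap_mem _) (mul_mem (hp c) (hq d))

theorem single_mem {E : IntermediateField ℂ M} (j i : Fin 4) :
    (Pi.single j 1 : Fin 4 → M) i ∈ E := by
  rw [Pi.single_apply]
  split_ifs
  · exact one_mem _
  · exact zero_mem _

/-- The coordinate of an isotropic vector is algebraic. -/
theorem alg_of_iso (hQ : ∀ i, (Q i).IsSymm) {E : IntermediateField ℂ M} {a b : M} (ha : a ∈ E)
    (hb : b ∈ E) {p q : Fin 4 → M} (hp : ∀ i, p i ∈ E) (hq : ∀ i, q i ∈ E) {s : M}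
    (hs : MB Q a b (p + s • q) (p + s • q) = 0)
    (hne : ¬ (MB Q a b p p = 0 ∧ MB Q a b p q = 0 ∧ MB Q a b q q = 0)) : IsAlgebraic E s := by
  have h2 : (2 : M) ∈ E := by
    have := E.algebraMap_mem (2 : ℂ)
    rwa [map_ofNat] at this
  refine ⟨C ⟨MB Q a b p p, MB_mem ha hb hp hp⟩ +
    C ⟨2 * MB Q a b p q, mul_mem h2 (MB_mem ha hb hp hq)⟩ * X +
    C ⟨MB Q a b q q, MB_mem ha hb hq hq⟩ * X ^ 2, ?_, ?_⟩
  · intro h0
    apply hne
    have e0 := congrArg (fun f => ((f.coeff 0 : E) : M)) h0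
    have e1 := congrArg (fun f => ((f.coeff 1 : E) : M)) h0
    have e2 := congrArg (fun f => ((f.coeff 2 : E) : M)) h0
    simp only [coeff_add, coeff_C_mul, coeff_X_pow, coeff_zero, coeff_C, coeff_X] at e0 e1 e2
    norm_num at e0 e1 e2
    exact ⟨e0, e1.resolve_left (char_two M), e2⟩
  · rw [MB_line hQ] at hs
    simp only [map_add, map_mul, map_pow, aeval_C, aeval_X]
    exact hs

end indep

section genz

variable {M : Type} [Field M] [Algebra ℂ M] {Q : Web} {j k l : Fin 4} {u z r : Fin 4 → M}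

/-- the vector with one coordinate removed -/
theorem vec_split (z : Fin 4 → M) (j : Fin 4) :
    z = (fun i => if i = j then 0 else z i) + z j • Pi.single j 1 := by
  funext i
  change z i = (if i = j then 0 else z i) + z j * (Pi.single j (1 : M) : Fin 4 → M) i
  rw [Pi.single_apply]
  split_ifs with h1
  · rw [h1]; ring
  · ring

theorem Cf.genZ [IsAlgClosed M] (hQ : ∀ i, (Q i).IsSymm) (hfin : ∀ o : Fin 4 → ℂ, qq Q o = 0 → o = 0)
    (hI : Idx j k l) (h : Cf Q j k l u z r) (hu : AlgebraicIndependent ℂ u) :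
    GenZ (u 0) (u 1) (MM Q (u 0) (u 1)) z := by
  classical
  have hab : AlgebraicIndependent ℂ ![u 0, u 1] := by
    have h1 := hu.comp (![0, 1] : Fin 2 → Fin 4) (by decide)
    have h2 : (u ∘ (![0, 1] : Fin 2 → Fin 4)) = ![u 0, u 1] := by
      funext i
      fin_cases i <;> rfl
    rwa [h2] at h1
  refine ⟨h.z0, ?_, ?_⟩
  · have h1 := MM_mulVec Q (u 0) (u 1) z z
    unfold dotProduct
    rw [h1]
    exact h.zz
  · let o : Fin 4 → M := ![u 0, u 1, z 1, z 2]
    let E := IntermediateField.adjoin ℂ (Set.range o)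
    have ho : ∀ i, o i ∈ E := fun i => IntermediateField.subset_adjoin ℂ _ ⟨i, rfl⟩
    have hz : ∀ i : Fin 4, i ≠ 3 → z i ∈ E := by
      intro i hi
      fin_cases i
      · change z 0 ∈ E
        rw [h.z0]
        exact one_mem _
      · exact ho 2
      · exact ho 3
      · exact absurd rfl hi
    have h3 : IsAlgebraic E (z 3) := by
      refine alg_of_iso (Q := Q) hQ (ho 0) (ho 1) (p := fun i => if i = 3 then 0 else z i)
        (q := Pi.single 3 1) ?_ (single_mem 3) ?_ ?_
      · intro i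
        change (if i = 3 then 0 else z i) ∈ E
        split_ifs with h1
        · exact zero_mem _
        · exact hz i h1
      · have h1 := h.zz
        rw [vec_split z 3] at h1
        exact h1
      · rintro ⟨-, -, h4⟩
        exact MB_single_ne hfin hab 3 h4
    have hzall : ∀ i : Fin 4, IsAlgebraic E (z i) := by
      intro i
      by_cases hi : i = 3
      · rw [hi]
        exact h3
      · exact isAlgebraic_algebraMap (⟨z i, hz i hi⟩ : E)
    obtain ⟨s, hs⟩ := exists_indep_alg o u hu (by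
      intro i
      fin_cases i
      · exact isAlgebraic_algebraMap (⟨u 0, ho 0⟩ : E)
      · exact isAlgebraic_algebraMap (⟨u 1, ho 1⟩ : E)
      · change IsAlgebraic E (u 2)
        rw [← h.zk]
        exact hzall k
      · change IsAlgebraic E (u 3)
        rw [← h.zl]
        exact hzall l)
    have hsi : Function.Injective s := fun i i' hi => hs.injective (by
      change o (s i) = o (s i')
      rw [hi])
    let e := Equiv.ofBijective s (Finite.injective_iff_bijective.1 hsi)
    have h5 := hs.comp e.symm e.symm.injective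
    have h6 : (fun i => o (s i)) ∘ e.symm = o := by
      funext i
      change o (e (e.symm i)) = o i
      rw [e.apply_symm_apply]
    rwa [h6] at h5

end genz

section gcase

variable {K K' N : Type} [Field K] [Algebra ℂ K] [Field K'] [Algebra ℂ K'] [Field N]
  [Algebra ℂ N] {Q : Web} {x : Fin 4 → K} {κ : K' →ₐ[ℂ] K} {m n : ℤ}

/-- the relation for generic lines of the rulings -/
def DHyp (Q : Web) (x : Fin 4 → K) (κ : K' →ₐ[ℂ] K) (m n : ℤ) : Prop :=
  ∀ (N : Type) [Field N] [Algebra ℂ N] [IsAlgClosed N], Algebra.trdeg ℂ N = 4 →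
    ∀ (a b w : N) (z : Fin 4 → N), GQ Q a b w z → n • R1.Psi Q x a b w z ∈ RH κ m N

variable [IsAlgClosed N]

theorem gcase (hQ : ∀ i, (Q i).IsSymm) (hfin : ∀ o : Fin 4 → ℂ, qq Q o = 0 → o = 0)
    (hirr : Irreducible (octic Q)) (hD : DHyp Q x κ m n) (h4 : Algebra.trdeg ℂ N = 4)
    {a b : N} {z r : Fin 4 → N} (hdet : (MM Q a b).det ≠ 0) (hz : GenZ a b (MM Q a b) z)
    (r0 : r 0 = 0) (hr : r ≠ 0) (zr : MB Q a b z r = 0) (rr : MB Q a b r r = 0) :
    n • RS x z r (qm Q (mv a b) z r) ∈ RH κ m N := by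
  classical
  haveI : CharZero N := charZero_of_injective_algebraMap (algebraMap ℂ N).injective
  obtain ⟨w', hw'⟩ := IsAlgClosed.exists_pow_nat_eq (MM Q a b).det (n := 2) two_pos
  have hw'0 : w' ≠ 0 := by
    rintro rfl
    apply hdet
    rw [← hw']
    ring
  have zz : MB Q a b z z = 0 := by
    rw [← MM_mulVec]
    exact hz.iso
  have hMs := MM_isSymm hQ a b
  obtain ⟨w, hw, hR⟩ : ∃ w, w ^ 2 = (MM Q a b).det ∧ Rul (MM Q a b) w z r := by
    rcases rul_or hMs hw' hw'0 hz.iso (u := r) (by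
      have := MM_mulVec Q a b z r
      unfold dotProduct
      rw [this, zr]) (by
      have := MM_mulVec Q a b r r
      unfold dotProduct
      rw [this, rr]) with h | h
    · exact ⟨w', hw', h⟩
    · exact ⟨-w', by rw [neg_sq, hw'], h⟩
  have hw0 : w ≠ 0 := by
    rintro rfl
    apply hdet
    rw [← hw]
    ring
  have hG : GQ Q a b w z := ⟨hz, hw, hw0⟩
  have hrel := hD N h4 a b w z hG
  obtain ⟨t, ht, hg, hset⟩ := hG.eight hQ hfin hirr h4 r0 hr hR
  have ha : a ≠ 0 := hG.x_ne
  have hb : b ≠ 0 := hG.y_ne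
  -- the quartic
  have hline : ∀ s : N, MB Q a b (z + s • r) (z + s • r) = 0 := by
    intro s
    rw [MB_line hQ, zz, zr, rr]
    ring
  have hprod : qm Q (mv a b) z r * qm Q (mop (mv a b)) z r =
      C (b⁻¹ * a * 1) * st (qL Q z r) := by
    apply Polynomial.funext
    intro s
    rw [eval_mul, eval_mul, eval_qm, eval_qm, eval_C, eval_st_qL, cm_mul, dt_lm_mv ha hb, hline]
    simp only [mv, Matrix.cons_val, mul_zero, add_zero]
  have hst8 : st (qq Q r) ≠ 0 := hG.top hQ hfin hirr h4 r0 hr hR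
  have hst0 : st (qL Q z r) ≠ 0 := by
    intro h0
    have h1 := coeff_st_qL Q z r
    rw [h0, coeff_zero] at h1
    exact hst8 h1.symm
  have hc0 : b⁻¹ * a * 1 ≠ 0 := mul_ne_zero (mul_ne_zero (inv_ne_zero hb) ha) one_ne_zero
  have hprod0 : qm Q (mv a b) z r * qm Q (mop (mv a b)) z r ≠ 0 := by
    rw [hprod]
    exact mul_ne_zero (C_ne_zero.2 hc0) hst0
  have hF0 : qm Q (mv a b) z r ≠ 0 := left_ne_zero_of_mul hprod0
  have hnd8 : (st (qL Q z r)).roots.Nodup := by
    rw [← Multiset.toFinset_card_eq_card_iff_nodup]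
    refine le_antisymm (Multiset.toFinset_card_le _) ?_
    have h1 : (Finset.univ.image t) ⊆ (st (qL Q z r)).roots.toFinset := by
      intro s hs
      obtain ⟨i, -, rfl⟩ := Finset.mem_image.1 hs
      rw [Multiset.mem_toFinset, mem_roots hst0, IsRoot, eval_st_qL]
      exact (hg i).zero
    have h2 := Finset.card_le_card h1
    rw [Finset.card_image_of_injective _ ht, Finset.card_univ, Fintype.card_fin] at h2
    exact ((card_roots' _).trans (natDegree_st_qL Q z r)).trans h2
  have hnd : (qm Q (mv a b) z r).roots.Nodup := by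
    refine Multiset.nodup_of_le ?_ hnd8
    have h1 : (qm Q (mv a b) z r * qm Q (mop (mv a b)) z r).roots = (st (qL Q z r)).roots := by
      rw [hprod, roots_C_mul _ hc0]
    rw [← h1, roots_mul hprod0]
    exact Multiset.le_add_right _ _
  -- the sum
  have hsum : RS x z r (qm Q (mv a b) z r) = R1.Psi Q x a b w z := by
    have hinj : Function.Injective (fun s : N => z + s • r) := by
      intro s s' hs
      obtain ⟨i, hi⟩ := Function.ne_iff.1 hr
      have h1 := congrFun hs i
      simp only [Pi.add_apply, Pi.smul_apply, smul_eq_mul] at h1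
      exact mul_right_cancel₀ hi (add_left_cancel h1)
    have hP : R1.PtSet Q a b w z =
        ((qm Q (mv a b) z r).roots.toFinset.image (fun s : N => z + s • r) : Finset _) := by
      ext o
      rw [Finset.mem_coe, Finset.mem_image]
      constructor
      · rintro ⟨h0, h1, h2, h3⟩
        have h5 : o ∈ {o | o 0 = 1 ∧ st (qq Q o) = 0 ∧ Rul (MM Q a b) w z o} := ⟨h0, h1, h3⟩
        rw [hset] at h5
        obtain ⟨i, hi⟩ := h5
        have hi' : z + t i • r = o := hi
        refine ⟨t i, ?_, hi'⟩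
        rw [Multiset.mem_toFinset, mem_roots hF0, IsRoot, eval_qm, hi', cm_eq]
        exact h2
      · rintro ⟨s, hs, rfl⟩
        rw [Multiset.mem_toFinset, mem_roots hF0, IsRoot, eval_qm] at hs
        refine ⟨?_, st_of_cm ha hb hs (hline s), ?_, ?_⟩
        · rw [Pi.add_apply, Pi.smul_apply, hz.one, r0, smul_zero, add_zero]
        · rw [← cm_eq]
          exact hs
        · exact (Rul.self _ _ _).add (hR.smul s)
    unfold RS R1.Psi
    rw [hP, finsum_mem_coe_finset, Finset.sum_image (fun s _ s' _ h => hinj h)]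
    rw [Finset.sum_multiset_map_count]
    refine Finset.sum_congr rfl fun s hs => ?_
    rw [Multiset.count_eq_one_of_mem hnd (Multiset.mem_toFinset.1 hs), one_smul]
  rw [hsum]
  exact hrel

end gcase

section descent

variable {K K' : Type} [Field K] [Algebra ℂ K] [Field K'] [Algebra ℂ K'] {Q : Web}
  {x : Fin 4 → K} {κ : K' →ₐ[ℂ] K} {m n : ℤ}

theorem GenW.of_map {N N' : Type} [Field N] [Algebra ℂ N] [Field N'] [Algebra ℂ N']
    (σ : N →ₐ[ℂ] N') {o : Fin 4 → N} (h : GenW Q (fun j => σ (o j))) : GenW Q o := by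
  refine ⟨?_, ?_, ?_⟩
  · apply σ.toRingHom.injective
    rw [map_zero]
    have h1 := h.zero
    rw [← map_st_qq] at h1
    exact h1
  · intro h0
    apply h.ne
    change σ (o 0) = 0
    rw [h0, map_zero]
  · obtain ⟨i, j, hij⟩ := h.ind
    refine ⟨i, j, ?_⟩
    refine AlgebraicIndependent.of_comp σ ?_
    have h2 : (σ ∘ ![o i / o 0, o j / o 0]) = ![σ (o i) / σ (o 0), σ (o j) / σ (o 0)] := by
      funext k
      fin_cases k
      · exact map_div₀ σ _ _
      · exact map_div₀ σ _ _
    rw [h2]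
    exact hij

theorem map_MB {N N' : Type} [Field N] [Algebra ℂ N] [Field N'] [Algebra ℂ N']
    (σ : N →ₐ[ℂ] N') (a b : N) (p q : Fin 4 → N) :
    σ (MB Q a b p q) = MB Q (σ a) (σ b) (fun j => σ (p j)) (fun j => σ (q j)) := by
  unfold MB
  rw [map_sum]
  refine Finset.sum_congr rfl fun i _ => ?_
  rw [map_mul, R1.map_lam, map_qb]

theorem map_cm {R A : Type} [CommRing R] [CommRing A] (σ : R →+* A) (m : Fin 3 → R)
    (y : Fin 4 → R) : σ (cm m y) = cm (fun i => σ (m i)) (fun i => σ (y i)) := by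
  simp only [cm, map_add, map_mul]

theorem RS_map (hx : C8.IsFF Q x) {N N' : Type} [Field N] [Algebra ℂ N] [IsAlgClosed N] [Field N']
    [Algebra ℂ N'] (σ : N →ₐ[ℂ] N') {z r : Fin 4 → N} {F : N[X]} {d : ℕ} (hd : F.natDegree ≤ d)
    (h0 : F.coeff d ≠ 0) (hg : ∀ t : N, F.eval t = 0 → GenW Q (z + t • r)) :
    Finsupp.mapDomain (fun φ : K →ₐ[ℂ] N => σ.comp φ) (RS x z r F) =
      RS x (fun j => σ (z j)) (fun j => σ (r j)) (F.map σ.toRingHom) := by
  obtain ⟨t, ht⟩ := exists_factor hd h0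
  have hF' : F.map σ.toRingHom = C (σ (F.coeff d)) * ∏ i, (X - C (σ (t i))) := by
    conv_lhs => rw [ht]
    rw [Polynomial.map_mul, Polynomial.map_prod, Polynomial.map_C]
    congr 1
    refine Finset.prod_congr rfl fun i _ => ?_
    rw [Polynomial.map_sub, Polynomial.map_X, Polynomial.map_C]
    rfl
  rw [RS_factor z r h0 ht, RS_factor _ _ (by
    intro h1
    exact h0 (σ.toRingHom.injective (by rw [map_zero]; exact h1))) hF']
  rw [Finsupp.mapDomain_finsetSum]
  refine Finset.sum_congr rfl fun i _ => ?_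
  rw [map_pt hx (hg (t i) (by
    rw [ht, eval_mul, eval_prod, Finset.prod_eq_zero (Finset.mem_univ i), mul_zero]
    simp)) σ]
  congr 1
  funext j
  simp only [Pi.add_apply, Pi.smul_apply, smul_eq_mul, map_add, map_mul]

variable {M : Type} [Field M] [Algebra ℂ M] [IsAlgClosed M] {j k l : Fin 4} {u z r : Fin 4 → M}

/-- **The relation for generic configurations.** -/
theorem Cf.rel_of_generic (hx : C8.IsFF Q x) (hQ : ∀ i, (Q i).IsSymm)
    (hfin : ∀ o : Fin 4 → ℂ, qq Q o = 0 → o = 0) (hirr : Irreducible (octic Q))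
    (hdet : ∀ (N : Type) [Field N] [Algebra ℂ N] (a b : N), AlgebraicIndependent ℂ ![a, b] →
      (MM Q a b).det ≠ 0) (hD : DHyp Q x κ m n) (hI : Idx j k l) (h : Cf Q j k l u z r)
    (hu : AlgebraicIndependent ℂ u) : n • RS x z r (qc Q u z r) ∈ RH κ m M := by
  let E := cl0 (Set.range u)
  haveI : IsAlgClosed E := isAlgClosed_cl0 _
  have hEc : Closed E := closed_cl0 _
  have huE : ∀ i, u i ∈ E := fun i => subset_cl0 _ ⟨i, rfl⟩
  have hab : AlgebraicIndependent ℂ ![u 0, u 1] := by
    have h1 := hu.comp (![0, 1] : Fin 2 → Fin 4) (by decide)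
    have h2 : (u ∘ (![0, 1] : Fin 2 → Fin 4)) = ![u 0, u 1] := by
      funext i
      fin_cases i <;> rfl
    rwa [h2] at h1
  -- the coordinates of the point are in the closed field
  have hzb : ∀ i, (fun i => if i = j then 0 else z i) i ∈ E := by
    intro i
    change (if i = j then 0 else z i) ∈ E
    rcases hI.all i with h1 | h1 | h1 | h1
    · subst h1
      rw [if_neg hI.j0.symm, h.z0]
      exact one_mem _
    · subst h1
      rw [if_pos rfl]
      exact zero_mem _
    · subst h1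
      rw [if_neg hI.jk.symm, h.zk]
      exact huE 2
    · subst h1
      rw [if_neg hI.jl.symm, h.zl]
      exact huE 3
  have hzj : z j ∈ E := by
    apply hEc
    refine alg_of_iso (Q := Q) hQ (huE 0) (huE 1) hzb (single_mem j) (by
      have h1 := h.zz
      rw [vec_split z j] at h1
      exact h1) ?_
    rintro ⟨-, h2, h3⟩
    apply h.ze
    rw [vec_split z j, MB_add_left, MB_smul_left, h2, h3, mul_zero, add_zero]
  have hz : ∀ i, z i ∈ E := by
    intro i
    by_cases hi : i = j
    · rw [hi]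
      exact hzj
    · have h1 := hzb i
      simp only [if_neg hi] at h1
      exact h1
  have hfpE : ∀ k i, fp Q (u 0) (u 1) z j k i ∈ E := by
    intro k i
    unfold fp
    exact add_mem (single_mem k i) (mul_mem (div_mem (neg_mem (MB_mem (huE 0) (huE 1) hz
      (single_mem k))) (MB_mem (huE 0) (huE 1) hz (single_mem j))) (single_mem j i))
  have hr' : r = fp Q (u 0) (u 1) z j k + r l • fp Q (u 0) (u 1) z j l := by
    have h1 := vec_fp hI h.ze h.r0 h.zr
    rwa [h.rk, one_smul] at h1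
  have hrl : r l ∈ E := by
    apply hEc
    refine alg_of_iso (Q := Q) hQ (huE 0) (huE 1) (hfpE k) (hfpE l) (by
      rw [← hr']
      exact h.rr) ?_
    rintro ⟨h1, h2, h3⟩
    obtain ⟨v, v0, vzv, vv⟩ := h.nd
    apply vv
    rw [vec_fp hI h.ze v0 vzv, MB_add_left, MB_add_right, MB_add_right, MB_smul_left,
      MB_smul_left, MB_smul_left, MB_smul_left, MB_smul_right, MB_smul_right, MB_smul_right,
      MB_smul_right, h1, h2, h3, MB_comm hQ _ _ _ (fp Q (u 0) (u 1) z j k), h2]
    ring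
  have hr : ∀ i, r i ∈ E := by
    intro i
    rw [hr']
    exact add_mem (hfpE k i) (mul_mem hrl (hfpE l i))
  have hG := h.genZ hQ hfin hI hu
  obtain ⟨a, ha⟩ : ∃ a : E, (a : M) = u 0 := ⟨⟨u 0, huE 0⟩, rfl⟩
  obtain ⟨b, hb⟩ : ∃ b : E, (b : M) = u 1 := ⟨⟨u 1, huE 1⟩, rfl⟩
  obtain ⟨z', hz'⟩ : ∃ z' : Fin 4 → E, ∀ i, (z' i : M) = z i := ⟨fun i => ⟨z i, hz i⟩, fun _ => rfl⟩
  obtain ⟨r', hr''⟩ : ∃ r' : Fin 4 → E, ∀ i, (r' i : M) = r i :=
    ⟨fun i => ⟨r i, hr i⟩, fun _ => rfl⟩
  let σ : E →ₐ[ℂ] M := E.val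
  have hσz : (fun i => σ (z' i)) = z := funext hz'
  have hσr : (fun i => σ (r' i)) = r := funext hr''
  have hσa : σ a = u 0 := ha
  have hσb : σ b = u 1 := hb
  have hinj : Function.Injective σ := σ.toRingHom.injective
  have hGE : GenZ a b (MM Q a b) z' := by
    refine ⟨hinj (by rw [map_one]; exact (hz' 0).trans h.z0), ?_, ?_⟩
    · unfold dotProduct
      rw [MM_mulVec]
      apply hinj
      rw [map_MB, hσz, hσa, hσb, map_zero]
      exact h.zz
    · refine AlgebraicIndependent.of_comp σ ?_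
      have h2 : (σ ∘ ![a, b, z' 1, z' 2]) = ![u 0, u 1, z 1, z 2] := by
        funext i
        fin_cases i
        · exact hσa
        · exact hσb
        · exact hz' 1
        · exact hz' 2
      rw [h2]
      exact hG.ind
  have habE : AlgebraicIndependent ℂ ![a, b] := hGE.xy
  have hpoly : (qm Q (mv a b) z' r').map σ.toRingHom = qc Q u z r := by
    unfold qc qm qL
    have h1 := map_cm (mapRingHom σ.toRingHom) (fun i => C (mv a b i))
      (qq Q (fun j => C (z' j) + X * C (r' j)))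
    rw [coe_mapRingHom] at h1
    rw [h1]
    congr 1
    · funext i
      rw [Polynomial.map_C]
      congr 1
      have h2 := R1.map_mv σ a b i
      rw [hσa, hσb] at h2
      exact h2
    · funext i
      have h2 := map_qq Q (Polynomial.mapAlgHom σ) (fun j => C (z' j) + X * C (r' j)) i
      have h3 : (Polynomial.mapAlgHom σ) (qq Q (fun j => C (z' j) + X * C (r' j)) i) =
        (qq Q (fun j => C (z' j) + X * C (r' j)) i).map σ.toRingHom := rfl
      rw [← h3, h2]
      congr 2
      funext s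
      change (C (z' s) + X * C (r' s)).map σ.toRingHom = _
      rw [Polynomial.map_add, Polynomial.map_mul, Polynomial.map_C, Polynomial.map_X,
        Polynomial.map_C]
      congr 2
      · exact hz' s
      · congr 1
        exact hr'' s
  have hcase := gcase hQ hfin hirr hD (trdeg_cl0 hu) (hdet E a b habE) hGE
    (r := r') (hinj (by rw [map_zero]; exact (hr'' 0).trans h.r0)) (by
      intro h0
      have h1 := h.rk
      rw [← hr'' k, h0] at h1
      simp at h1) (hinj (by
      rw [map_MB, hσz, hσr, hσa, hσb, map_zero]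
      exact h.zr)) (hinj (by
      rw [map_MB, hσr, hσa, hσb, map_zero]
      exact h.rr))
  have hmap := RH.map σ hcase
  rw [Finsupp.mapDomain_smul] at hmap
  rw [RS_map hx σ (natDegree_qm Q _ _ _) (by
    intro h0
    have h1 := congrArg (fun f => f.coeff 4) hpoly
    simp only [coeff_map] at h1
    rw [h0, map_zero] at h1
    have h2 := coeff_qm Q (mv (u 0) (u 1)) z r
    exact h.lc (h2.symm.trans h1.symm)) (by
    intro t ht
    refine GenW.of_map σ ?_
    have h1 : (fun j => σ ((z' + t • r') j)) = z + σ t • r := by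
      funext s
      simp only [Pi.add_apply, Pi.smul_apply, smul_eq_mul, map_add, map_mul]
      have e1 : σ (z' s) = z s := hz' s
      have e2 : σ (r' s) = r s := hr'' s
      rw [e1, e2]
    rw [h1]
    apply h.gen
    have h2 : (qc Q u z r).eval (σ t) = 0 := by
      rw [← hpoly, eval_map]
      have h3 := Polynomial.hom_eval₂ (qm Q (mv a b) z' r') (RingHom.id E) σ.toRingHom t
      rw [RingHom.comp_id] at h3
      change eval₂ σ.toRingHom (σ.toRingHom t) (qm Q (mv a b) z' r') = 0
      rw [← h3]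
      change σ.toRingHom (eval t (qm Q (mv a b) z' r')) = 0
      rw [ht, map_zero]
    unfold qc at h2
    rw [eval_qm] at h2
    exact h2)] at hmap
  rw [hpoly, hσz, hσr] at hmap
  exact hmap

/-- Specialisation of the relation. -/
theorem Cf.step {N N₁ : Type} [Field N] [Algebra ℂ N] [Field N₁] [Algebra ℂ N₁] [Algebra N N₁]
    [IsScalarTower ℂ N N₁] {P : Plc N N₁} [IsAlgClosed N₁] (hx : C8.IsFF Q x)
    (hQ : ∀ i, (Q i).IsSymm) (hI : Idx j k l) {u z r : Fin 4 → N} (h : Cf Q j k l u z r)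
    {u₁ : Fin 4 → N₁} (hu : ∀ i, P.Val (u₁ i) (u i))
    (hrel : ∀ z₁ r₁, Cf Q j k l u₁ z₁ r₁ → n • RS x z₁ r₁ (qc Q u₁ z₁ r₁) ∈ RH κ m N₁) :
    n • RS x z r (qc Q u z r) ∈ RH κ m N := by
  obtain ⟨z₁, r₁, h₁, vz, vr⟩ := h.lift hQ hI hu
  have v : PVal P (qc Q u₁ z₁ r₁) (qc Q u z r) := pval_qm (val_mv (hu 0) (hu 1) h.y0) vz vr
  have hlc : (qc Q u z r).coeff 4 ≠ 0 := by
    unfold qc
    rw [coeff_qm]
    exact h.lc
  have hlc₁ : (qc Q u₁ z₁ r₁).coeff 4 ≠ 0 := by
    unfold qc
    rw [coeff_qm]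
    exact h₁.lc
  obtain ⟨t₁, t, ht, hF₁, hF⟩ := v.roots (natDegree_qm Q _ z₁ r₁) hlc
  have h1 := hrel z₁ r₁ h₁
  rw [RS_factor z₁ r₁ hlc₁ hF₁] at h1
  rw [RS_factor z r hlc hF]
  have e₁ : ∀ i, (qc Q u₁ z₁ r₁).eval (t₁ i) = 0 := by
    intro i
    rw [hF₁, eval_mul, eval_prod, Finset.prod_eq_zero (Finset.mem_univ i), mul_zero]
    simp
  have e : ∀ i, (qc Q u z r).eval (t i) = 0 := by
    intro i
    rw [hF, eval_mul, eval_prod, Finset.prod_eq_zero (Finset.mem_univ i), mul_zero]
    simp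
  refine RH.of_plc (P := P) hx n ?_ (fun i => h.gen _ ?_) (fun i => h₁.gen _ ?_) h1
  · intro i s
    exact (vz s).add ((ht i).mul (vr s))
  · have h2 := e i
    unfold qc at h2
    rw [eval_qm] at h2
    exact h2
  · have h2 := e₁ i
    unfold qc at h2
    rw [eval_qm] at h2
    exact h2

/-- **The relation for every configuration.** -/
theorem Cf.rel (hx : C8.IsFF Q x) (hQ : ∀ i, (Q i).IsSymm)
    (hfin : ∀ o : Fin 4 → ℂ, qq Q o = 0 → o = 0) (hirr : Irreducible (octic Q))
    (hdet : ∀ (N : Type) [Field N] [Algebra ℂ N] (a b : N), AlgebraicIndependent ℂ ![a, b] →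
      (MM Q a b).det ≠ 0) (hD : DHyp Q x κ m n) (hI : Idx j k l) (h : Cf Q j k l u z r) :
    n • RS x z r (qc Q u z r) ∈ RH κ m M := by
  obtain ⟨P0, hP0⟩ := exists_eps (N := M) 0
  refine h.step (P := P0) hx hQ hI (bump_val u 0 hP0) ?_
  intro z₁ r₁ h₁
  obtain ⟨P1, hP1⟩ := exists_eps (N := EpsField M) 0
  refine h₁.step (P := P1) hx hQ hI (bump_val (bump u 0) 1 hP1) ?_
  intro z₂ r₂ h₂
  obtain ⟨P2, hP2⟩ := exists_eps (N := EpsField (EpsField M)) 0
  refine h₂.step (P := P2) hx hQ hI (bump_val (bump (bump u 0) 1) 2 hP2) ?_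
  intro z₃ r₃ h₃
  obtain ⟨P3, hP3⟩ := exists_eps (N := EpsField (EpsField (EpsField M))) 0
  refine h₃.step (P := P3) hx hQ hI (bump_val (bump (bump (bump u 0) 1) 2) 3 hP3) ?_
  intro z₄ r₄ h₄
  refine h₄.rel_of_generic hx hQ hfin hirr hdet hD hI ?_
  have hi : AlgebraicIndepOn ℂ (bump (bump (bump (bump u 0) 1) 2) 3)
      (insert 3 (insert 2 (insert 1 (insert 0 ∅)))) := by
    refine bump_indep (by simp) (bump_indep (by simp) (bump_indep (by simp)
      (bump_indep (by simp) ?_)))
    haveI : IsEmpty (∅ : Set (Fin 4)) := Set.isEmpty_coe_sort.mpr rfl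
    unfold AlgebraicIndepOn
    rw [algebraicIndependent_empty_type_iff]
    exact (algebraMap ℂ M).injective
  have hu : (insert 3 (insert 2 (insert 1 (insert 0 ∅))) : Set (Fin 4)) = Set.univ := by
    ext i
    fin_cases i <;> simp
  rw [hu] at hi
  exact hi.comp (fun i : Fin 4 => (⟨i, trivial⟩ : (Set.univ : Set (Fin 4)))) (fun i j h =>
    congrArg Subtype.val h)

end descent

end Vale.Agent.P297.H212.Camp
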