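import Vale.Agent.P297.H212.Camp.Alg
import Vale.Agent.P297.H572.Z3.Tr

/-!
The points of the octic on the line joining two points with the same image are generic.
-/

set_option linter.unusedSectionVars false

open IntermediateField Polynomial

namespace Vale.Agent.P297.H212.Camp

open Vale.Agent.P297 Vale.Agent.P297.Gen Vale.Agent.P297.Z3 Vale.Agent.P297.C8
open Vale.Agent.P297.H777

section field

variable {N : Type} [Field N] [Algebra ℂ N] [IsAlgClosed N]

theorem mem_of_alg {M : IntermediateField ℂ N} (hM : Closed M) {a : N} (ha : IsAlgebraic ℂ a) :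
    a ∈ M := hM a (ha.tower_top M)

theorem cl0_single_le {M : IntermediateField ℂ N} (hM : Closed M) {a : N} (ha : a ∈ M) :
    cl0 {a} ≤ M := cl0_le hM (Set.singleton_subset_iff.2 ha)

/-- Two elements of a field of transcendence degree one. -/
theorem not_ind {a b θ : N} (ha : a ∈ cl0 {θ}) (hb : b ∈ cl0 {θ}) :
    ¬ AlgebraicIndependent ℂ ![a, b] := by
  intro h
  have h2 : a ∉ cl0 (∅ : Set N) := by
    have h3 : (![a, b] : Fin 2 → N) 0 ∉ cl0 ((![a, b] : Fin 2 → N) '' ∅) := by
      rw [mem_cl0]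
      exact (IntermediateField.transcendental_adjoin_iff).2 (h.transcendental_adjoin (by simp))
    rw [Set.image_empty] at h3
    exact h3
  have h3 : b ∉ cl0 ({a} : Set N) := by
    have h3 : (![a, b] : Fin 2 → N) 1 ∉ cl0 ((![a, b] : Fin 2 → N) '' {0}) := by
      rw [mem_cl0]
      exact (IntermediateField.transcendental_adjoin_iff).2 (h.transcendental_adjoin (by simp))
    rw [Set.image_singleton] at h3
    exact h3
  have h4 : θ ∈ clo (cl0 ∅) {a} :=
    exchange (cl0_closed _) (cl0_single_le (closed_clo _ _) (mem_clo_self _ _) ha) h2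
  have h5 : θ ∈ cl0 ({a} : Set N) := by
    refine clo_le (cl0_closed _) (cl0_le (cl0_closed _) (Set.empty_subset _)) ?_ h4
    exact subset_cl0 _
  exact h3 (cl0_single_le (closed_cl0 _) h5 hb)

/-- Independence in terms of closed fields. -/
theorem ind_of_notMem {a b : N} (ha : Transcendental ℂ a) (hb : b ∉ cl0 {a}) :
    AlgebraicIndependent ℂ ![a, b] := by
  refine (pair_iff' a b).2 ⟨ha, ?_⟩
  rwa [mem_cl0] at hb

end field

section ng

variable {K N : Type} [Field K] [Algebra ℂ K] [Field N] [Algebra ℂ N] {Q : Web} {x : Fin 4 → K}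

/-- Forms of degree less than eight do not vanish at generic points. -/
theorem form_ne (hx : C8.IsFF Q x) {o : Fin 4 → N} (ho : GenW Q o) {f : MvPolynomial (Fin 4) ℂ}
    {d : ℕ} (hf : f.IsHomogeneous d) (hd : d < 8) (h : f ≠ 0) : MvPolynomial.aeval o f ≠ 0 := by
  obtain ⟨φ, hφ⟩ := ho.exists_phi hx
  have h1 : o = fun j => o 0 * φ (x j) := by
    funext j
    rw [hφ, mul_div_cancel₀ _ ho.ne]
  have h2 : MvPolynomial.aeval (fun j => φ (x j)) f = φ (MvPolynomial.aeval x f) := by
    rw [MvPolynomial.comp_aeval_apply]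
  rw [h1, aeval_smul_homog hf, h2]
  exact mul_ne_zero (pow_ne_zero _ ho.ne) ((map_ne_zero φ).2 (hx.aeval_ne_zero hf hd h))

theorem qq_X_ne (hirr : Irreducible (octic Q)) {i : Fin 4} (hi : i ≠ 0) :
    qq Q (MvPolynomial.X : Fin 4 → MvPolynomial (Fin 4) ℂ) i ≠ 0 := by
  intro h
  obtain ⟨y, hy⟩ : ∃ y, y = qq Q (MvPolynomial.X : Fin 4 → MvPolynomial (Fin 4) ℂ) := ⟨_, rfl⟩
  rw [← hy] at h
  have h1 : octic Q = st y := by rw [hy]; rfl
  have key : ∀ a : MvPolynomial (Fin 4) ℂ, octic Q ≠ a ^ 2 := by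
    intro a ha
    rw [ha] at hirr
    exact not_irreducible_pow (by norm_num) hirr
  have hi3 : i = 1 ∨ i = 2 ∨ i = 3 := by
    fin_cases i
    · exact absurd rfl hi
    · exact Or.inl rfl
    · exact Or.inr (Or.inl rfl)
    · exact Or.inr (Or.inr rfl)
  rcases hi3 with rfl | rfl | rfl
  · refine key (y 2 * y 3) ?_
    rw [h1, st, h]
    ring
  · refine key (y 1 * y 3) ?_
    rw [h1, st, h]
    ring
  · refine key (y 1 * y 2) ?_
    rw [h1, st, h]
    ring

/-- The values of the quadratic map at a generic point. -/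
theorem qq_ne (hx : C8.IsFF Q x) {o : Fin 4 → N} (ho : GenW Q o) {i : Fin 4} (hi : i ≠ 0) :
    qq Q o i ≠ 0 := by
  have h1 := form_ne hx ho (qq_X_homogeneous Q i) (by norm_num) (qq_X_ne hx.irr hi)
  rw [map_qq] at h1
  simpa only [MvPolynomial.aeval_X] using h1

/-- A point of the octic with two independent ratios of coordinates is generic. -/
theorem genW_of_ind (hx : C8.IsFF Q x) {p : Fin 4 → N} (h0 : st (qq Q p) = 0) {j i i' : Fin 4}
    (hj : p j ≠ 0) (hind : AlgebraicIndependent ℂ ![p i / p j, p i' / p j]) : GenW Q p := by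
  have hp0 : p 0 ≠ 0 := by
    intro hp0
    let r : Fin 4 → N := fun k => p k / p j
    have hr : r = (p j)⁻¹ • p := by
      funext k
      simp only [r, Pi.smul_apply, smul_eq_mul]
      rw [div_eq_inv_mul]
    let y : Fin 4 → N[X] := fun k => X * C (r k)
    have hy : MvPolynomial.aeval y (octic Q) = 0 := by
      rw [aeval_smul_homog (octic_homogeneous Q)]
      have h2 : MvPolynomial.aeval (fun k => C (r k) : Fin 4 → N[X]) (octic Q) =
          (IsScalarTower.toAlgHom ℂ N N[X]) (MvPolynomial.aeval r (octic Q)) := by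
        rw [MvPolynomial.comp_aeval_apply]
        rfl
      rw [h2, aeval_octic, hr, qq_smul, st_smul, h0, mul_zero, map_zero, mul_zero]
    have h1 := (dvd_of_generic (octic Q) hx.irr y hy ![j, i, i'] (by
      convert indep_cone hind using 1
      funext k
      fin_cases k
      · change X * C (p j / p j) = X
        rw [div_self hj, C_1, mul_one]
      · change X * C (r i) = C (r i) * X
        rw [mul_comm]
      · change X * C (r i') = C (r i') * X
        rw [mul_comm]) (MvPolynomial.X 0)).1 (by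
      rw [MvPolynomial.aeval_X]
      change X * C (p 0 / p j) = 0
      rw [hp0, zero_div, C_0, mul_zero])
    obtain ⟨g, hg⟩ := h1
    have hX : (MvPolynomial.X 0 : MvPolynomial (Fin 4) ℂ) ≠ 0 := MvPolynomial.X_ne_zero 0
    have hgne : g ≠ 0 := by
      rintro rfl
      exact hX (by rw [hg, mul_zero])
    have h2 := MvPolynomial.totalDegree_mul_of_isDomain hx.irr.ne_zero hgne
    rw [← hg, MvPolynomial.totalDegree_X, (octic_homogeneous Q).totalDegree hx.irr.ne_zero] at h2
    omega
  refine GenW.of_trdeg h0 hp0 _ hind fun k => ?_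
  have hm : ∀ l, p l / p 0 ∈ IntermediateField.adjoin ℂ (Set.range fun j => p j / p 0) :=
    fun l => IntermediateField.subset_adjoin _ _ ⟨l, rfl⟩
  have hd : ∀ l, p l / p j = (p l / p 0) / (p j / p 0) := fun l => by
    rw [div_div_div_cancel_right₀ hp0]
  fin_cases k
  · change p i / p j ∈ _
    rw [hd]
    exact div_mem (hm _) (hm _)
  · change p i' / p j ∈ _
    rw [hd]
    exact div_mem (hm _) (hm _)

variable [IsAlgClosed N]

/-- **The points of the octic that are not generic** are defined over a field of transcendence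
degree one. -/
theorem exists_of_not (hx : C8.IsFF Q x) {p : Fin 4 → N} (hp : p ≠ 0) (h0 : st (qq Q p) = 0)
    (hn : ¬ GenW Q p) : ∃ θ c : N, c ≠ 0 ∧ ∀ i, c * p i ∈ cl0 {θ} := by
  obtain ⟨j, hj⟩ : ∃ j, p j ≠ 0 := by
    by_contra hcon
    push Not at hcon
    exact hp (funext hcon)
  have hni : ∀ i i', ¬ AlgebraicIndependent ℂ ![p i / p j, p i' / p j] := fun i i' h =>
    hn (genW_of_ind hx h0 hj h)
  by_cases hall : ∀ i, IsAlgebraic ℂ (p i / p j)
  · refine ⟨0, (p j)⁻¹, inv_ne_zero hj, fun i => ?_⟩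
    rw [inv_mul_eq_div]
    exact mem_of_alg (closed_cl0 _) (hall i)
  · push Not at hall
    obtain ⟨i, hi⟩ := hall
    refine ⟨p i / p j, (p j)⁻¹, inv_ne_zero hj, fun i' => ?_⟩
    rw [inv_mul_eq_div]
    by_contra hcon
    exact hni i i' (ind_of_notMem hi hcon)

/-- A generic point is not defined over a field of transcendence degree one. -/
theorem GenW.notMem {o : Fin 4 → N} (ho : GenW Q o) {θ c : N} (hc : c ≠ 0)
    (h : ∀ i, c * o i ∈ cl0 {θ}) : False := by
  obtain ⟨i, j, hij⟩ := ho.ind
  have h1 : ∀ k, o k / o 0 ∈ cl0 {θ} := by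
    intro k
    have h2 : o k / o 0 = (c * o k) / (c * o 0) := by rw [mul_div_mul_left _ _ hc]
    rw [h2]
    exact div_mem (h k) (h 0)
  exact not_ind (h1 i) (h1 j) hij

end ng

end Vale.Agent.P297.H212.Camp
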