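import Vale.Agent.P297.H212.Camp.Link8
import Vale.Agent.P297.H777.SmoothR

/-!
The linking relation when the double cover of the octic is smooth.
-/

set_option linter.unusedSectionVars false
set_option linter.style.haveILetI false

open IntermediateField Polynomial

namespace Vale.Agent.P297.H212.Camp

open Vale.Agent.P297 Vale.Agent.P297.C8 Vale.Agent.P297.H72

variable {K K' N : Type} [Field K] [Algebra ℂ K] [Field K'] [Algebra ℂ K'] [Field N]
  [Algebra ℂ N] [IsAlgClosed N] {Q : Web} {x : Fin 4 → K} {κ : K' →ₐ[ℂ] K} {mm n : ℤ}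

theorem webN_of_smooth (hQ : ∀ i, (Q i).IsSymm) (hfin : NoBase Q) (hirr : Irreducible (octic Q))
    (hsm : SmoothX Q) : WebN Q N where
  symm := hQ
  zero := fun p hp => zero_of_noBase hfin hp
  int := by
    intro E hE p hp j
    refine hE _ ?_
    have h1 := web_integral hfin p j
    have hle : ∀ z : Algebra.adjoin ℂ (Set.range (qq Q p)), (z : N) ∈ E := by
      intro z
      have h2 : Algebra.adjoin ℂ (Set.range (qq Q p)) ≤ E.toSubalgebra := by
        rw [Algebra.adjoin_le_iff]
        rintro _ ⟨i, rfl⟩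
        exact hp i
      exact h2 z.2
    let φ : Algebra.adjoin ℂ (Set.range (qq Q p)) →+* E :=
      (Algebra.adjoin ℂ (Set.range (qq Q p))).val.toRingHom.codRestrict E hle
    exact (IsIntegral.map_of_comp_eq φ (RingHom.id N) rfl h1).isAlgebraic
  rk := by
    intro p u v hst hp hu hv hu0
    by_cases hc : ∃ c : N, v = c • u
    · exact Or.inl hc
    · right
      have hind : LinearIndependent N ![u, v] := by
        rw [LinearIndependent.pair_iff]
        intro s t hst
        by_cases ht : t = 0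
        · rw [ht, zero_smul, add_zero] at hst
          exact ⟨(smul_eq_zero.1 hst).resolve_right hu0, ht⟩
        · exfalso
          apply hc
          refine ⟨-(t⁻¹ * s), ?_⟩
          have h1 : t⁻¹ • (s • u + t • v) = 0 := by rw [hst, smul_zero]
          rw [smul_add, smul_smul, smul_smul, inv_mul_cancel₀ ht, one_smul] at h1
          rw [neg_smul]
          exact eq_neg_of_add_eq_zero_right h1
      obtain ⟨c, y, l, h1, h2, h3, h4⟩ := rank_of_smooth hQ hfin hsm hst hp hu hv hind
      exact ⟨c, y, l, h1, h2, h3, h4⟩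
  jac := fun p u hp hu => hp.qb_eq_zero hQ hfin hirr hu

/-- **Linking** over a smooth surface. -/
theorem link_smooth (hx : C8.IsFF Q x) (hQ : ∀ i, (Q i).IsSymm) (hfin : NoBase Q)
    (hirr : Irreducible (octic Q))
    (hdet : ∀ (N : Type) [Field N] [Algebra ℂ N] (a b : N), AlgebraicIndependent ℂ ![a, b] →
      (MM Q a b).det ≠ 0) (hD : DHyp Q x κ mm n) (hsm : SmoothX Q)
    (o o' : Fin 4 → N) (ho : GenW Q o) (ho' : GenW Q o') (h : qq Q o' = qq Q o)
    (hne : o' ≠ o) (hne' : o' ≠ -o) :
    (2 * n) • resK κ (C8.pt x o + C8.pt x o') ∈ Rel mm K' N :=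
  link_of_webN hx hfin hirr hdet hD (webN_of_smooth hQ hfin hirr hsm)
    (fun m hm hmc => rank3_of_smooth hQ hsm m hm fun ⟨c, z, hz⟩ => hmc c z hz)
    o o' ho ho' h hne hne'

/-- **Bloch's conjecture** for the quotients of the smooth surface `Q(o) = e(v)`. -/
theorem bloch_smooth (hx : C8.IsFF Q x) (hQ : ∀ i, (Q i).IsSymm) (hfin : NoBase Q)
    (hirr : Irreducible (octic Q)) (hsp : ∃ a : Fin 4 → ℂ, Three Q a)
    (hdet : ∀ (N : Type) [Field N] [Algebra ℂ N] (a b : N), AlgebraicIndependent ℂ ![a, b] →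
      (MM Q a b).det ≠ 0) (hn : n ≠ 0) (hD : DHyp Q x κ 0 n) (hsm : SmoothX Q)
    (φ : K →ₐ[ℂ] N) : H839.PointsEquivalent K' :=
  camp_glue hQ hfin hirr hsp hx κ φ (mul_ne_zero two_ne_zero hn)
    (link_smooth hx hQ hfin hirr hdet hD hsm)

end Vale.Agent.P297.H212.Camp
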