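import Vale.Agent.P297.H777.Octic

/-!
Identities for the lines of the plane and the points of the octic on a line joining two points
with the same image.
-/

set_option linter.unusedSectionVars false

open Polynomial

namespace Vale.Agent.P297.H212.Camp

open Vale.Agent.P297.C8

section defs

variable {R : Type} [CommRing R]

/-- the value of the line `m` at the point of the plane over `y` -/
def cm (m : Fin 3 → R) (y : Fin 4 → R) : R := m 0 * (y 2 * y 3) + m 1 * (y 1 * y 3) +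
  m 2 * (y 1 * y 2)

theorem cm_eq (m : Fin 3 → R) (y : Fin 4 → R) : cm m y = ∑ i, m i * vy y i := by
  simp only [cm, Fin.sum_univ_three, vy_zero, vy_one, vy_two]

/-- the member of the web of conics which contains the line `m` -/
def lm (m : Fin 3 → R) : Fin 4 → R :=
  ![2 * (m 0 * m 1 * m 2), m 0 * (m 1 ^ 2 + m 2 ^ 2), m 1 * (m 0 ^ 2 + m 2 ^ 2),
    m 2 * (m 0 ^ 2 + m 1 ^ 2)]

/-- the pairing -/
def dt (l y : Fin 4 → R) : R := l 0 * y 0 + l 1 * y 1 + l 2 * y 2 + l 3 * y 3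

theorem dt_eq (l y : Fin 4 → R) : dt l y = ∑ i, l i * y i := by
  simp only [dt, Fin.sum_univ_four]

/-- the cross product -/
def cr (v w : Fin 3 → R) : Fin 3 → R :=
  ![v 1 * w 2 - v 2 * w 1, v 2 * w 0 - v 0 * w 2, v 0 * w 1 - v 1 * w 0]

theorem lm_zero (m : Fin 3 → R) : lm m 0 = 2 * (m 0 * m 1 * m 2) := rfl
theorem lm_one (m : Fin 3 → R) : lm m 1 = m 0 * (m 1 ^ 2 + m 2 ^ 2) := rfl
theorem lm_two (m : Fin 3 → R) : lm m 2 = m 1 * (m 0 ^ 2 + m 2 ^ 2) := rfl
theorem lm_three (m : Fin 3 → R) : lm m 3 = m 2 * (m 0 ^ 2 + m 1 ^ 2) := rfl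
theorem cr_zero (v w : Fin 3 → R) : cr v w 0 = v 1 * w 2 - v 2 * w 1 := rfl
theorem cr_one (v w : Fin 3 → R) : cr v w 1 = v 2 * w 0 - v 0 * w 2 := rfl
theorem cr_two (v w : Fin 3 → R) : cr v w 2 = v 0 * w 1 - v 1 * w 0 := rfl

/-- the opposite line -/
def mop (m : Fin 3 → R) : Fin 3 → R := ![m 1 * m 2, m 0 * m 2, m 0 * m 1]

/-- **(I1)** -/
theorem cm_mul (m : Fin 3 → R) (y : Fin 4 → R) : cm m y * cm (mop m) y =
    m 0 * m 1 * m 2 * st y + y 1 * y 2 * y 3 * dt (lm m) y := by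
  simp only [cm, mop, dt, lm_zero, lm_one, lm_two, lm_three, st, Matrix.cons_val_zero,
    Matrix.cons_val_one, Matrix.cons_val]
  ring

/-- **(I2)** -/
theorem dt_cr (v : Fin 3 → R) (y : Fin 4 → R) : dt (lm (cr v (vy y))) y =
    - st y * ((v 0 * y 1 - v 1 * y 2) * (v 1 * y 2 - v 2 * y 3) * (v 2 * y 3 - v 0 * y 1)) := by
  simp only [dt, lm_zero, lm_one, lm_two, lm_three, st, cr_zero, cr_one, cr_two, vy_zero, vy_one,
    vy_two]
  ring

theorem dt_ee (m v : Fin 3 → R) : dt (lm m) (ee v) =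
    2 * ((m 0 * v 0 + m 1 * v 1 + m 2 * v 2) *
      (m 1 * m 2 * v 0 + m 0 * m 2 * v 1 + m 0 * m 1 * v 2)) := by
  simp only [dt, lm_zero, lm_one, lm_two, lm_three, ee, eb, Matrix.cons_val_zero,
    Matrix.cons_val_one, Matrix.cons_val]
  ring

theorem dt_add (l y z : Fin 4 → R) : dt l (y + z) = dt l y + dt l z := by
  simp only [dt, Pi.add_apply]
  ring

theorem dt_smul (l : Fin 4 → R) (c : R) (y : Fin 4 → R) : dt l (c • y) = c * dt l y := by
  simp only [dt, Pi.smul_apply, smul_eq_mul]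
  ring

theorem lm_smul (c : R) (m : Fin 3 → R) : lm (c • m) = c ^ 3 • lm m := by
  funext i
  fin_cases i
  · simp only [Fin.zero_eta, lm_zero, Pi.smul_apply, smul_eq_mul]
    ring
  · simp only [Fin.mk_one, lm_one, Pi.smul_apply, smul_eq_mul]
    ring
  · simp only [Fin.reduceFinMk, lm_two, Pi.smul_apply, smul_eq_mul]
    ring
  · simp only [Fin.reduceFinMk, lm_three, Pi.smul_apply, smul_eq_mul]
    ring

theorem dt_smul_left (c : R) (l y : Fin 4 → R) : dt (c • l) y = c * dt l y := by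
  simp only [dt, Pi.smul_apply, smul_eq_mul]
  ring

theorem cm_smul_left (c : R) (m : Fin 3 → R) (y : Fin 4 → R) : cm (c • m) y = c * cm m y := by
  simp only [cm, Pi.smul_apply, smul_eq_mul]
  ring

theorem cm_add_left (m m' : Fin 3 → R) (y : Fin 4 → R) : cm (m + m') y = cm m y + cm m' y := by
  simp only [cm, Pi.add_apply]
  ring

theorem cm_smul (m : Fin 3 → R) (c : R) (y : Fin 4 → R) : cm m (c • y) = c ^ 2 * cm m y := by
  simp only [cm, Pi.smul_apply, smul_eq_mul]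
  ring

end defs

section

variable {R : Type} [CommRing R]

/-- the first line through `v` -/
def mA (v : Fin 3 → R) : Fin 3 → R := ![0, v 2, - v 1]

/-- the second line through `v` -/
def mB (v : Fin 3 → R) : Fin 3 → R := ![v 2, 0, - v 0]

theorem mA_zero (v : Fin 3 → R) : mA v 0 = 0 := rfl
theorem mA_one (v : Fin 3 → R) : mA v 1 = v 2 := rfl
theorem mA_two (v : Fin 3 → R) : mA v 2 = - v 1 := rfl
theorem mB_zero (v : Fin 3 → R) : mB v 0 = v 2 := rfl
theorem mB_one (v : Fin 3 → R) : mB v 1 = 0 := rfl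
theorem mB_two (v : Fin 3 → R) : mB v 2 = - v 0 := rfl

/-- the form `κ` -/
def kap (v : Fin 3 → R) (f : Fin 4 → R) (a b : R) : R := dt (lm (a • mA v + b • mB v)) f

/-- the product of the differences -/
def Pf (v : Fin 3 → R) (f : Fin 4 → R) : R :=
  (v 0 * f 1 - v 1 * f 2) * (v 1 * f 2 - v 2 * f 3) * (v 2 * f 3 - v 0 * f 1)

/-- The value of `κ` at the line through `v` and the point over `y`. -/
theorem kap_line (v : Fin 3 → R) (f y : Fin 4 → R) :
    kap v f (- cm (mB v) y) (cm (mA v) y) = - (v 2 ^ 3) * dt (lm (cr v (vy y))) f := by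
  have h1 : (- cm (mB v) y) • mA v + (cm (mA v) y) • mB v = (- v 2) • cr v (vy y) := by
    funext i
    fin_cases i
    · simp only [Fin.zero_eta, Pi.add_apply, Pi.smul_apply, smul_eq_mul, mA_zero, mB_zero, cm,
        mA_one, mA_two, mB_one, mB_two, cr_zero, vy_one, vy_two]
      ring
    · simp only [Fin.mk_one, Pi.add_apply, Pi.smul_apply, smul_eq_mul, mA_zero, mB_zero, cm,
        mA_one, mA_two, mB_one, mB_two, cr_one, vy_zero, vy_two]
      ring
    · simp only [Fin.reduceFinMk, Pi.add_apply, Pi.smul_apply, smul_eq_mul, mA_zero, mB_zero, cm,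
        mA_one, mA_two, mB_one, mB_two, cr_two, vy_zero, vy_one]
      ring
  unfold kap
  rw [h1, lm_smul, dt_smul_left]
  ring

/-- the coefficients of `κ` -/
def kc (v : Fin 3 → R) (f : Fin 4 → R) : Fin 4 → R :=
  ![v 0 ^ 2 * v 2 * f 1 - v 0 * v 2 ^ 2 * f 3,
    -2 * v 0 * v 2 ^ 2 * f 0 + 2 * v 0 * v 1 * v 2 * f 1 + v 2 * (v 0 ^ 2 + v 2 ^ 2) * f 2 -
      v 1 * v 2 ^ 2 * f 3,
    -2 * v 1 * v 2 ^ 2 * f 0 + v 2 * (v 1 ^ 2 + v 2 ^ 2) * f 1 + 2 * v 0 * v 1 * v 2 * f 2 -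
      v 0 * v 2 ^ 2 * f 3,
    v 1 ^ 2 * v 2 * f 2 - v 1 * v 2 ^ 2 * f 3]

theorem kc_zero (v : Fin 3 → R) (f : Fin 4 → R) : kc v f 0 =
  v 0 ^ 2 * v 2 * f 1 - v 0 * v 2 ^ 2 * f 3 := rfl
theorem kc_one (v : Fin 3 → R) (f : Fin 4 → R) : kc v f 1 =
  -2 * v 0 * v 2 ^ 2 * f 0 + 2 * v 0 * v 1 * v 2 * f 1 + v 2 * (v 0 ^ 2 + v 2 ^ 2) * f 2 -
      v 1 * v 2 ^ 2 * f 3 := rfl
theorem kc_two (v : Fin 3 → R) (f : Fin 4 → R) : kc v f 2 =
  -2 * v 1 * v 2 ^ 2 * f 0 + v 2 * (v 1 ^ 2 + v 2 ^ 2) * f 1 + 2 * v 0 * v 1 * v 2 * f 2 -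
      v 0 * v 2 ^ 2 * f 3 := rfl
theorem kc_three (v : Fin 3 → R) (f : Fin 4 → R) : kc v f 3 =
  v 1 ^ 2 * v 2 * f 2 - v 1 * v 2 ^ 2 * f 3 := rfl

/-- `κ` is a cubic form. -/
theorem kap_eq (v : Fin 3 → R) (f : Fin 4 → R) (a b : R) : kap v f a b =
    kc v f 3 * a ^ 3 + kc v f 2 * a ^ 2 * b + kc v f 1 * a * b ^ 2 + kc v f 0 * b ^ 3 := by
  simp only [kap, dt, lm_zero, lm_one, lm_two, lm_three, kc_zero, kc_one, kc_two, kc_three,
    Pi.add_apply, Pi.smul_apply, smul_eq_mul, mA_zero, mA_one, mA_two, mB_zero, mB_one, mB_two]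
  ring

/-- The value of the conic of a line through `v` at `y = a z + b f`. -/
theorem dt_line [IsDomain R] {v : Fin 3 → R} {z f : Fin 4 → R} (hv : v = vy z)
    (hz : st z = 0) (h2 : (2 : R) ≠ 0) (hz0 : z 1 * z 2 * z 3 ≠ 0) (a b : R) (hb : b ≠ 0)
    {y : Fin 4 → R} (hy : y = a • z + b • f) :
    dt (lm (cr v (vy y))) f = - (b ^ 2 * st y * Pf v f) := by
  obtain ⟨m, hm⟩ : ∃ m, m = cr v (vy y) := ⟨_, rfl⟩
  have h1 : dt (lm m) (ee v) = 0 := by
    rw [dt_ee, hm]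
    simp only [cr_zero, cr_one, cr_two]
    ring
  have hev : ee v = (2 * (z 1 * z 2 * z 3)) • z := by
    simp only [st] at hz
    rw [hv]
    funext i
    fin_cases i
    · simp only [ee, eb, vy, Fin.zero_eta, Matrix.cons_val_zero, Matrix.cons_val_one,
        Matrix.cons_val, Pi.smul_apply, smul_eq_mul]
      linear_combination hz
    · simp only [ee, eb, vy, Fin.mk_one, Matrix.cons_val_zero, Matrix.cons_val_one,
        Matrix.cons_val, Pi.smul_apply, smul_eq_mul]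
      ring
    · simp only [ee, eb, vy, Fin.reduceFinMk, Matrix.cons_val_zero, Matrix.cons_val_one,
        Matrix.cons_val, Pi.smul_apply, smul_eq_mul]
      ring
    · simp only [ee, eb, vy, Fin.reduceFinMk, Matrix.cons_val_zero, Matrix.cons_val_one,
        Matrix.cons_val, Pi.smul_apply, smul_eq_mul]
      ring
  have h3 : dt (lm m) z = 0 := by
    rw [hev, dt_smul] at h1
    exact (mul_eq_zero.1 h1).resolve_left (mul_ne_zero h2 hz0)
  have h4 := dt_cr v y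
  rw [← hm] at h4 ⊢
  have h5 : dt (lm m) y = b * dt (lm m) f := by
    rw [hy, dt_add, dt_smul, dt_smul, h3]
    ring
  rw [h5] at h4
  have e1 : v 0 * y 1 - v 1 * y 2 = b * (v 0 * f 1 - v 1 * f 2) := by
    rw [hv, hy]
    simp only [vy_zero, vy_one, Pi.add_apply, Pi.smul_apply, smul_eq_mul]
    ring
  have e2 : v 1 * y 2 - v 2 * y 3 = b * (v 1 * f 2 - v 2 * f 3) := by
    rw [hv, hy]
    simp only [vy_two, vy_one, Pi.add_apply, Pi.smul_apply, smul_eq_mul]
    ring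
  have e3 : v 2 * y 3 - v 0 * y 1 = b * (v 2 * f 3 - v 0 * f 1) := by
    rw [hv, hy]
    simp only [vy_two, vy_zero, Pi.add_apply, Pi.smul_apply, smul_eq_mul]
    ring
  rw [e1, e2, e3] at h4
  apply mul_left_cancel₀ hb
  rw [h4]
  simp only [Pf]
  ring

/-- **The product of the three quartics.** -/
theorem prod_cm [IsDomain R] {v : Fin 3 → R} {z f : Fin 4 → R} (hv : v = vy z)
    (hz : st z = 0) (h2 : (2 : R) ≠ 0) (hz0 : z 1 * z 2 * z 3 ≠ 0) (a b : R) (hb : b ≠ 0)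
    {y : Fin 4 → R} (hy : y = a • z + b • f) {c₀ c₁ c₂ : R}
    (hk : ∀ s t : R, kap v f s t = kc v f 3 * ((s - c₀ * t) * (s - c₁ * t) * (s - c₂ * t))) :
    kc v f 3 * (cm (mB v + c₀ • mA v) y * cm (mB v + c₁ • mA v) y * cm (mB v + c₂ • mA v) y) =
      - (v 2 ^ 3 * Pf v f) * b ^ 2 * st y := by
  have h1 := kap_line v f y
  rw [dt_line hv hz h2 hz0 a b hb hy, hk] at h1
  simp only [cm_add_left, cm_smul_left]
  linear_combination -h1

end

section

variable {N : Type} [Field N] [IsAlgClosed N]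

/-- The roots of a binary cubic form. -/
theorem exists_cubic (k : Fin 4 → N) (h3 : k 3 ≠ 0) : ∃ c : Fin 3 → N,
    k 2 = -(k 3 * (c 0 + c 1 + c 2)) ∧ k 1 = k 3 * (c 0 * c 1 + c 0 * c 2 + c 1 * c 2) ∧
      k 0 = -(k 3 * (c 0 * c 1 * c 2)) := by
  obtain ⟨p, hp⟩ : ∃ p : N[X], p = C (k 3) * X ^ 3 + C (k 2) * X ^ 2 + C (k 1) * X + C (k 0) :=
    ⟨_, rfl⟩
  have hdeg : p.natDegree = 3 := by
    rw [hp]
    compute_degree!
  have hlc : p.leadingCoeff = k 3 := by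
    rw [leadingCoeff, hdeg, hp]
    simp
  have hcard : p.roots.card = 3 := by
    rw [← hdeg]
    exact IsAlgClosed.card_roots_eq_natDegree
  obtain ⟨x, y, z, hxyz⟩ := Multiset.card_eq_three.1 hcard
  have hprod := (IsAlgClosed.splits p).eq_prod_roots
  rw [hxyz, hlc] at hprod
  simp only [Multiset.insert_eq_cons, Multiset.map_cons, Multiset.map_singleton,
    Multiset.prod_cons, Multiset.prod_singleton] at hprod
  obtain ⟨u2, hu2⟩ : ∃ u, u = -(k 3 * (x + y + z)) := ⟨_, rfl⟩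
  obtain ⟨u1, hu1⟩ : ∃ u, u = k 3 * (x * y + x * z + y * z) := ⟨_, rfl⟩
  obtain ⟨u0, hu0⟩ : ∃ u, u = -(k 3 * (x * y * z)) := ⟨_, rfl⟩
  have h4 : p = C (k 3) * X ^ 3 + C u2 * X ^ 2 + C u1 * X + C u0 := by
    rw [hprod, hu2, hu1, hu0]
    simp only [C_mul, C_neg, C_add]
    ring
  rw [hp] at h4
  have e2 : k 2 = u2 := by
    have := congrArg (fun q => q.coeff 2) h4
    simpa [coeff_X, coeff_C] using this
  have e1 : k 1 = u1 := by
    have := congrArg (fun q => q.coeff 1) h4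
    simpa [coeff_X, coeff_C] using this
  have e0 : k 0 = u0 := by
    have := congrArg (fun q => q.coeff 0) h4
    simpa [coeff_X, coeff_C] using this
  refine ⟨![x, y, z], ?_, ?_, ?_⟩
  · rw [e2, hu2]
    simp only [Matrix.cons_val_zero, Matrix.cons_val_one, Matrix.cons_val]
  · rw [e1, hu1]
    simp only [Matrix.cons_val_zero, Matrix.cons_val_one, Matrix.cons_val]
  · rw [e0, hu0]
    simp only [Matrix.cons_val_zero, Matrix.cons_val_one, Matrix.cons_val]

end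

end Vale.Agent.P297.H212.Camp
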