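import Vale.Agent.P297.H212.Camp.Pair

/-!
The three quartics and the octic on the line joining two points with the same image.
-/

set_option linter.unusedSectionVars false

open IntermediateField Polynomial

namespace Vale.Agent.P297.H212.Camp

open Vale.Agent.P297 Vale.Agent.P297.Gen Vale.Agent.P297.Z3 Vale.Agent.P297.C8
open Vale.Agent.P297.H777

section

variable {K N : Type} [Field K] [Algebra ℂ K] [Field N] [Algebra ℂ N] [IsAlgClosed N]
  {Q : Web} {x : Fin 4 → K} {o o' : Fin 4 → N}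

theorem Pair.st_y (W : WebN Q N) (hx : C8.IsFF Q x) (h : Pair Q o o') :
    st (qq Q (o - o')) ≠ 0 := by
  intro h0
  have hy0 : o + o' ≠ 0 := fun h1 => h.ne' (eq_neg_of_add_eq_zero_right h1)
  have h1 := h.gen_pt W hx (a := 0) (b := 1) (Or.inr one_ne_zero) (by
    rw [zero_smul, zero_add, one_smul]
    exact h0)
  rw [zero_smul, zero_add, one_smul] at h1
  exact hy0 (W.jac _ _ h1 (by rw [qb_comm W.symm, h.xy W]))

/-- A point of the line over a point of the octic has nonzero coordinates. -/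
theorem Pair.ne_of_st (W : WebN Q N) (hx : C8.IsFF Q x) (h : Pair Q o o') {a b : N}
    (hb : b ≠ 0) {y : Fin 4 → N} (hy : y = a • qq Q o + b • qb Q o o') (h0 : st y = 0)
    {i : Fin 4} (hi : i ≠ 0) : y i ≠ 0 := by
  have h20 := char_two N
  obtain ⟨c, hc⟩ := IsAlgClosed.exists_pow_nat_eq (a + b) (n := 2) (by norm_num)
  obtain ⟨d, hd⟩ := IsAlgClosed.exists_pow_nat_eq (a - b) (n := 2) (by norm_num)
  have h1 : qq Q (c • (o + o') + d • (o - o')) = (4 : N) • y := by
    rw [qq_add W.symm, qq_smul, qq_smul, qb_smul_left, qb_smul_right, h.xy W, hc, hd, h.qqx W,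
      h.qqy W, hy]
    module
  have hcd : c ≠ 0 ∨ d ≠ 0 := by
    by_contra hcon
    push Not at hcon
    rw [hcon.1] at hc
    rw [hcon.2] at hd
    apply hb
    have h2 : 2 * b = 0 := by linear_combination hd - hc
    exact (mul_eq_zero.1 h2).resolve_left h20
  have h2 := h.gen_pt W hx hcd (by rw [h1, st_smul, h0, mul_zero])
  have h3 := qq_ne hx h2 hi
  rw [h1, Pi.smul_apply, smul_eq_mul] at h3
  exact right_ne_zero_of_mul h3

theorem Pair.Pf_ne (W : WebN Q N) (hx : C8.IsFF Q x) (h : Pair Q o o') :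
    Pf (vy (qq Q o)) (qb Q o o') ≠ 0 := by
  obtain ⟨z, hz⟩ : ∃ z, z = qq Q o := ⟨_, rfl⟩
  obtain ⟨f, hf⟩ : ∃ f, f = qb Q o o' := ⟨_, rfl⟩
  have z1 : z 1 ≠ 0 := by rw [hz]; exact qq_ne hx h.gen (by decide)
  have z2 : z 2 ≠ 0 := by rw [hz]; exact qq_ne hx h.gen (by decide)
  have z3 : z 3 ≠ 0 := by rw [hz]; exact qq_ne hx h.gen (by decide)
  rw [← hz, ← hf]
  unfold Pf
  simp only [vy_zero, vy_one, vy_two]
  refine mul_ne_zero (mul_ne_zero ?_ ?_) ?_
  · intro h0
    have h1 : z 2 * f 1 = z 1 * f 2 := by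
      apply mul_left_cancel₀ z3
      linear_combination h0
    have h2 : ((- f 1) • z + z 1 • f) 1 = 0 := by
      simp only [Pi.add_apply, Pi.smul_apply, smul_eq_mul]
      ring
    have h3 : ((- f 1) • z + z 1 • f) 2 = 0 := by
      simp only [Pi.add_apply, Pi.smul_apply, smul_eq_mul]
      linear_combination -h1
    refine h.ne_of_st W hx (a := - f 1) (b := z 1) z1 (y := (- f 1) • z + z 1 • f)
      (by rw [hz, hf]) ?_ (i := 1) (by decide) h2
    rw [st, h2, h3]
    ring
  · intro h0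
    have h1 : z 3 * f 2 = z 2 * f 3 := by
      apply mul_left_cancel₀ z1
      linear_combination h0
    have h2 : ((- f 2) • z + z 2 • f) 2 = 0 := by
      simp only [Pi.add_apply, Pi.smul_apply, smul_eq_mul]
      ring
    have h3 : ((- f 2) • z + z 2 • f) 3 = 0 := by
      simp only [Pi.add_apply, Pi.smul_apply, smul_eq_mul]
      linear_combination -h1
    refine h.ne_of_st W hx (a := - f 2) (b := z 2) z2 (y := (- f 2) • z + z 2 • f)
      (by rw [hz, hf]) ?_ (i := 2) (by decide) h2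
    rw [st, h2, h3]
    ring
  · intro h0
    have h1 : z 1 * f 3 = z 3 * f 1 := by
      apply mul_left_cancel₀ z2
      linear_combination h0
    have h2 : ((- f 3) • z + z 3 • f) 3 = 0 := by
      simp only [Pi.add_apply, Pi.smul_apply, smul_eq_mul]
      ring
    have h3 : ((- f 3) • z + z 3 • f) 1 = 0 := by
      simp only [Pi.add_apply, Pi.smul_apply, smul_eq_mul]
      linear_combination -h1
    refine h.ne_of_st W hx (a := - f 3) (b := z 3) z3 (y := (- f 3) • z + z 3 • f)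
      (by rw [hz, hf]) ?_ (i := 3) (by decide) h2
    rw [st, h2, h3]
    ring

/-- A line through `v` whose conic contains `f`. -/
structure Lk (Q : Web) (o o' : Fin 4 → N) (m : Fin 3 → N) : Prop where
  ne : ∀ i, m i ≠ 0
  dx : dt (lm m) (qq Q (o + o')) = 0
  dy : dt (lm m) (qq Q (o - o')) = 0
  cy : cm m (qq Q (o - o')) ≠ 0
  cv : cm m (qq Q o) = 0

/-- The polynomials `a + X² b`. -/
noncomputable def pY (a b : Fin 4 → N) : Fin 4 → N[X] := fun i => C (a i) + X ^ 2 * C (b i)

/-- The quartic. -/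
noncomputable def pq (m : Fin 3 → N) (a b : Fin 4 → N) : N[X] := cm (fun i => C (m i)) (pY a b)

theorem eval_pq (m : Fin 3 → N) (a b : Fin 4 → N) (t : N) :
    (pq m a b).eval t = cm m (a + t ^ 2 • b) := by
  simp only [pq, pY, cm, eval_add, eval_mul, eval_pow, eval_X, eval_C, Pi.add_apply,
    Pi.smul_apply, smul_eq_mul]

theorem eval_st (a b : Fin 4 → N) (t : N) :
    (st (pY a b)).eval t = st (a + t ^ 2 • b) := by
  simp only [pY, st, eval_add, eval_sub, eval_mul, eval_pow, eval_X, eval_C, eval_ofNat,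
    Pi.add_apply, Pi.smul_apply, smul_eq_mul]

/-- **The three lines.** -/
theorem Pair.exists_lines (W : WebN Q N) (hx : C8.IsFF Q x) (h : Pair Q o o') :
    ∃ m : Fin 3 → Fin 3 → N, (∀ k, Lk Q o o' (m k)) ∧ ∃ c : N, c ≠ 0 ∧
      pq (m 0) (qq Q (o + o')) (qq Q (o - o')) * pq (m 1) (qq Q (o + o')) (qq Q (o - o')) *
        pq (m 2) (qq Q (o + o')) (qq Q (o - o')) =
      C c * (X - 1) ^ 2 * (X + 1) ^ 2 * st (pY (qq Q (o + o')) (qq Q (o - o'))) := by
  have h20 := char_two N
  obtain ⟨z, hz⟩ : ∃ z, z = qq Q o := ⟨_, rfl⟩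
  obtain ⟨f, hf⟩ : ∃ f, f = qb Q o o' := ⟨_, rfl⟩
  obtain ⟨v, hv⟩ : ∃ v, v = vy z := ⟨_, rfl⟩
  have hst := h.st_y W hx
  have hP := h.Pf_ne W hx
  have hstz : st z = 0 := by rw [hz]; exact h.gen.zero
  rw [h.qqx W, h.qqy W, ← hz, ← hf]
  rw [h.qqy W, ← hz, ← hf] at hst
  rw [← hz, ← hf, ← hv] at hP
  have z1 : z 1 ≠ 0 := by rw [hz]; exact qq_ne hx h.gen (by decide)
  have z2 : z 2 ≠ 0 := by rw [hz]; exact qq_ne hx h.gen (by decide)
  have z3 : z 3 ≠ 0 := by rw [hz]; exact qq_ne hx h.gen (by decide)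
  have hz0 : z 1 * z 2 * z 3 ≠ 0 := mul_ne_zero (mul_ne_zero z1 z2) z3
  have v0 : v 0 ≠ 0 := by rw [hv]; exact mul_ne_zero z2 z3
  have v1 : v 1 ≠ 0 := by rw [hv]; exact mul_ne_zero z1 z3
  have v2 : v 2 ≠ 0 := by rw [hv]; exact mul_ne_zero z1 z2
  obtain ⟨hP1, hP3⟩ := mul_ne_zero_iff.1 hP
  obtain ⟨hP1, hP2⟩ := mul_ne_zero_iff.1 hP1
  have hk3 : kc v f 3 ≠ 0 := by
    have h1 : kc v f 3 = v 1 * v 2 * (v 1 * f 2 - v 2 * f 3) := by
      rw [kc_three]
      ring
    rw [h1]
    exact mul_ne_zero (mul_ne_zero v1 v2) hP2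
  obtain ⟨c, hc2, hc1, hc0⟩ := exists_cubic (kc v f) hk3
  have hkap : ∀ s t : N, kap v f s t =
      kc v f 3 * ((s - c 0 * t) * (s - c 1 * t) * (s - c 2 * t)) := fun s t => by
    rw [kap_eq, hc2, hc1, hc0]
    ring
  have hroot : ∀ k, kap v f (c k) 1 = 0 := by
    intro k
    rw [hkap]
    fin_cases k
    · simp
    · simp
    · simp
  -- the coordinates of the lines
  have hm : ∀ k, ∀ i, (mB v + c k • mA v) i ≠ 0 := by
    intro k i
    have hr := hroot k
    fin_cases i
    · simp only [Fin.zero_eta, Pi.add_apply, Pi.smul_apply, smul_eq_mul, mB_zero, mA_zero,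
        mul_zero, add_zero]
      exact v2
    · simp only [Fin.mk_one, Pi.add_apply, Pi.smul_apply, smul_eq_mul, mB_one, mA_one, zero_add]
      intro h1
      have h2 : c k = 0 := (mul_eq_zero.1 h1).resolve_right v2
      rw [h2, kap_eq, kc_zero] at hr
      apply mul_ne_zero (mul_ne_zero v0 v2) hP3
      linear_combination -hr
    · simp only [Fin.reduceFinMk, Pi.add_apply, Pi.smul_apply, smul_eq_mul, mB_two, mA_two]
      intro h1
      have h2 : c k * v 1 = - v 0 := by linear_combination -h1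
      rw [kap_eq, kc_zero, kc_one, kc_two, kc_three] at hr
      apply mul_ne_zero (mul_ne_zero v0 (pow_ne_zero 3 v2)) hP1
      have h3 : c k = - v 0 / v 1 := by rw [eq_div_iff v1, h2]
      rw [h3] at hr
      field_simp at hr
      linear_combination hr
  have hdz : ∀ k, dt (lm (mB v + c k • mA v)) z = 0 := by
    intro k
    have h1 : dt (lm (mB v + c k • mA v)) (ee v) = 0 := by
      rw [dt_ee]
      simp only [Pi.add_apply, Pi.smul_apply, smul_eq_mul, mB_zero, mB_one, mB_two, mA_zero,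
        mA_one, mA_two]
      ring
    rw [hv, ee_vy hstz, dt_smul, ← hv] at h1
    exact (mul_eq_zero.1 h1).resolve_left (mul_ne_zero h20 hz0)
  have hdf : ∀ k, dt (lm (mB v + c k • mA v)) f = 0 := by
    intro k
    have h1 := hroot k
    unfold kap at h1
    rw [one_smul, add_comm] at h1
    exact h1
  -- the product
  have hprod := prod_cm (R := N) hv hstz h20 hz0 2 (-2) (neg_ne_zero.2 h20)
    (y := (2 : N) • (z - f)) (by module) hkap
  have hcy : ∀ k, cm (mB v + c k • mA v) ((2 : N) • (z - f)) ≠ 0 := by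
    have h1 : cm (mB v + c 0 • mA v) ((2 : N) • (z - f)) *
        cm (mB v + c 1 • mA v) ((2 : N) • (z - f)) *
        cm (mB v + c 2 • mA v) ((2 : N) • (z - f)) ≠ 0 := by
      intro h1
      rw [h1, mul_zero] at hprod
      have h2 : v 2 ^ 3 * Pf v f * (-2) ^ 2 * st ((2 : N) • (z - f)) ≠ 0 :=
        mul_ne_zero (mul_ne_zero (mul_ne_zero (pow_ne_zero 3 v2) hP)
          (pow_ne_zero 2 (neg_ne_zero.2 h20))) hst
      apply h2
      linear_combination hprod
    obtain ⟨h2, h3⟩ := mul_ne_zero_iff.1 h1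
    obtain ⟨h4, h5⟩ := mul_ne_zero_iff.1 h2
    intro k
    fin_cases k
    · exact h4
    · exact h5
    · exact h3
  refine ⟨fun k => mB v + c k • mA v, fun k => ⟨hm k, ?_, ?_, ?_, ?_⟩,
    - (4 * v 2 ^ 3 * Pf v f) / kc v f 3, ?_, ?_⟩
  · rw [h.qqx W, ← hz, ← hf, dt_smul, dt_add, hdz, hdf, add_zero, mul_zero]
  · rw [h.qqy W, ← hz, ← hf, dt_smul, sub_eq_add_neg, dt_add, hdz, ← neg_one_smul N f, dt_smul, hdf,
      mul_zero, add_zero, mul_zero]
  · rw [h.qqy W, ← hz, ← hf]
    exact hcy k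
  · rw [← hz, cm_eq, Fin.sum_univ_three, ← hv]
    simp only [Pi.add_apply, Pi.smul_apply, smul_eq_mul, mB_zero, mB_one, mB_two, mA_zero,
      mA_one, mA_two]
    ring
  · refine div_ne_zero (neg_ne_zero.2 (mul_ne_zero (mul_ne_zero ?_ (pow_ne_zero 3 v2)) hP)) hk3
    have h4 : (4 : N) = 2 * 2 := by norm_num
    rw [h4]
    exact mul_ne_zero h20 h20
  · -- the identity of polynomials
    obtain ⟨v', hv'⟩ : ∃ v' : Fin 3 → N[X], v' = fun i => C (v i) := ⟨_, rfl⟩
    obtain ⟨z', hz'⟩ : ∃ z' : Fin 4 → N[X], z' = fun i => C (z i) := ⟨_, rfl⟩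
    obtain ⟨f', hf'⟩ : ∃ f' : Fin 4 → N[X], f' = fun i => C (f i) := ⟨_, rfl⟩
    have hkc : ∀ i, kc v' f' i = C (kc v f i) := by
      intro i
      rw [hv', hf']
      fin_cases i
      · simp only [Fin.zero_eta, kc_zero, C_mul, C_pow, C_sub]
      · simp only [Fin.mk_one, kc_one, C_mul, C_pow, C_sub, C_add, C_neg]
        rfl
      · simp only [Fin.reduceFinMk, kc_two, C_mul, C_pow, C_sub, C_add, C_neg]
        rfl
      · simp only [Fin.reduceFinMk, kc_three, C_mul, C_pow, C_sub]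
    have hPf : Pf v' f' = C (Pf v f) := by
      rw [hv', hf']
      simp only [Pf, C_mul, C_sub]
    have hb : (2 * (1 - X ^ 2) : N[X]) ≠ 0 := by
      intro h1
      have h2 := congrArg (eval 0) h1
      simp only [eval_mul, eval_ofNat, eval_sub, eval_one, eval_pow, eval_X, eval_zero] at h2
      apply h20
      linear_combination h2
    have hst' : st z' = 0 := by
      have h1 : st z' = C (st z) := by
        rw [hz']
        simp only [st, C_mul, C_sub, C_add, C_pow]
        rfl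
      rw [h1, hstz, C_0]
    have h2' : (2 : N[X]) ≠ 0 := by
      intro h1
      have h2 := congrArg (eval 0) h1
      rw [eval_ofNat, eval_zero] at h2
      exact h20 h2
    have hz0' : z' 1 * z' 2 * z' 3 ≠ 0 := by
      rw [hz']
      simp only [← C_mul]
      exact C_ne_zero.2 hz0
    obtain ⟨Y, hY⟩ : ∃ Y, Y = pY ((2 : N) • (z + f)) ((2 : N) • (z - f)) := ⟨_, rfl⟩
    have hY' : Y = (2 * (1 + X ^ 2) : N[X]) • z' + (2 * (1 - X ^ 2) : N[X]) • f' := by
      rw [hY, hz', hf']
      funext i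
      simp only [pY, Pi.smul_apply, Pi.add_apply, Pi.sub_apply, smul_eq_mul, C_mul, C_add, C_sub]
      have h1 : (C 2 : N[X]) = 2 := rfl
      rw [h1]
      ring
    have h5 := prod_cm (R := N[X]) (v := v') (z := z') (f := f') (by
      rw [hv', hz', hv]
      funext i
      fin_cases i
      · simp only [Fin.zero_eta, vy_zero, C_mul]
      · simp only [Fin.mk_one, vy_one, C_mul]
      · simp only [Fin.reduceFinMk, vy_two, C_mul]) hst' h2' hz0' _ _ hb hY'
      (c₀ := C (c 0)) (c₁ := C (c 1)) (c₂ := C (c 2)) (by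
      intro s t
      rw [kap_eq, hkc, hkc, hkc, hkc, hc2, hc1, hc0]
      simp only [C_mul, C_add, C_neg]
      ring)
    have hcm : ∀ k, cm (mB v' + C (c k) • mA v') Y =
        pq (mB v + c k • mA v) ((2 : N) • (z + f)) ((2 : N) • (z - f)) := by
      intro k
      unfold pq
      rw [← hY]
      congr 1
      rw [hv']
      funext i
      fin_cases i
      · simp only [Fin.zero_eta, Pi.add_apply, Pi.smul_apply, smul_eq_mul, mB_zero, mA_zero,
          mul_zero, C_add, C_0]
      · simp only [Fin.mk_one, Pi.add_apply, Pi.smul_apply, smul_eq_mul, mB_one, mA_one, C_add,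
          C_mul, C_0]
      · simp only [Fin.reduceFinMk, Pi.add_apply, Pi.smul_apply, smul_eq_mul, mB_two, mA_two,
          C_add, C_mul, C_neg]
    rw [hcm, hcm, hcm, hkc, hPf] at h5
    rw [← hY]
    have hk3' : C (kc v f 3) ≠ (0 : N[X]) := C_ne_zero.2 hk3
    apply mul_left_cancel₀ hk3'
    rw [h5, hv']
    have h6 : C (kc v f 3) * C (-(4 * v 2 ^ 3 * Pf v f) / kc v f 3) =
        - (4 * C (v 2) ^ 3 * C (Pf v f) : N[X]) := by
      rw [← C_mul, mul_div_cancel₀ _ hk3]
      simp only [C_neg, C_mul, C_pow]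
      rfl
    linear_combination (-((X - 1) ^ 2 * (X + 1) ^ 2 * st Y)) * h6

end

end Vale.Agent.P297.H212.Camp
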