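import Vale.Agent.P297.H212.Camp.Octl
import Vale.Agent.P297.H212.Camp.Link
import Vale.Agent.P297.H72.OctB
import Vale.Agent.P297.H637.PsiDefs

/-!
Deformation of an isotropic line of a quadric of the web to a generic one.
-/

set_option linter.unusedSectionVars false

open IntermediateField Polynomial

namespace Vale.Agent.P297.H212.Camp

open Vale.Agent.P297 Vale.Agent.P297.C8 Vale.Agent.P297.H72 Vale.Agent.P297.H777

section form

variable {N : Type} [Field N] [Algebra ℂ N] {Q : Web}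

theorem MB_add_left (x y : N) (a b c : Fin 4 → N) :
    MB Q x y (a + b) c = MB Q x y a c + MB Q x y b c := by
  simp only [MB, qb_add_left, Pi.add_apply, mul_add, Finset.sum_add_distrib]

theorem MB_add_right (x y : N) (a b c : Fin 4 → N) :
    MB Q x y a (b + c) = MB Q x y a b + MB Q x y a c := by
  simp only [MB, qb_add_right, Pi.add_apply, mul_add, Finset.sum_add_distrib]

theorem MB_smul_left (x y s : N) (a c : Fin 4 → N) :
    MB Q x y (s • a) c = s * MB Q x y a c := by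
  simp only [MB, qb_smul_left, Pi.smul_apply, smul_eq_mul, Finset.mul_sum]
  exact Finset.sum_congr rfl fun i _ => by ring

theorem MB_smul_right (x y s : N) (a c : Fin 4 → N) :
    MB Q x y a (s • c) = s * MB Q x y a c := by
  simp only [MB, qb_smul_right, Pi.smul_apply, smul_eq_mul, Finset.mul_sum]
  exact Finset.sum_congr rfl fun i _ => by ring

theorem MB_comm (hQ : ∀ i, (Q i).IsSymm) (x y : N) (a b : Fin 4 → N) :
    MB Q x y a b = MB Q x y b a := by
  unfold MB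
  rw [qb_comm hQ]

theorem MB_line (hQ : ∀ i, (Q i).IsSymm) (x y s : N) (a b : Fin 4 → N) :
    MB Q x y (a + s • b) (a + s • b) =
      MB Q x y a a + 2 * MB Q x y a b * s + MB Q x y b b * s ^ 2 := by
  rw [MB_add_left, MB_add_right, MB_add_right, MB_smul_left, MB_smul_left, MB_smul_right,
    MB_smul_right, MB_comm hQ x y b a]
  ring

theorem lm_mv {x y : N} (hx : x ≠ 0) (hy : y ≠ 0) :
    lm (mv x y) = (2 * x * y⁻¹) • lam x y := by
  have h2 := char_two N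
  funext i
  fin_cases i
  · simp only [Fin.zero_eta, lm_zero, mv, lam, Pi.smul_apply, smul_eq_mul, Matrix.cons_val]
    ring
  · simp only [Fin.mk_one, lm_one, mv, lam, Pi.smul_apply, smul_eq_mul, Matrix.cons_val]
    field_simp
  · simp only [Fin.reduceFinMk, lm_two, mv, lam, Pi.smul_apply, smul_eq_mul, Matrix.cons_val]
    field_simp
    ring
  · simp only [Fin.reduceFinMk, lm_three, mv, lam, Pi.smul_apply, smul_eq_mul, Matrix.cons_val]
    field_simp
    ring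

theorem dt_lm_mv {x y : N} (hx : x ≠ 0) (hy : y ≠ 0) (p : Fin 4 → N) :
    dt (lm (mv x y)) (qq Q p) = 2 * x * y⁻¹ * MB Q x y p p := by
  rw [lm_mv hx hy, dt_smul_left, dt_eq]
  rfl

theorem st_of_cm {x y : N} (hx : x ≠ 0) (hy : y ≠ 0) {p : Fin 4 → N}
    (h : cm (mv x y) (qq Q p) = 0) (h' : MB Q x y p p = 0) : st (qq Q p) = 0 := by
  have h1 := cm_mul (mv x y) (qq Q p)
  rw [h, dt_lm_mv hx hy, h', zero_mul, mul_zero, mul_zero, add_zero] at h1
  refine (mul_eq_zero.1 h1.symm).resolve_left ?_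
  simp only [mv, Matrix.cons_val]
  exact mul_ne_zero (mul_ne_zero (inv_ne_zero hy) hx) one_ne_zero

end form

section val

variable {N N₁ : Type} [Field N] [Algebra ℂ N] [Field N₁] [Algebra ℂ N₁] [Algebra N N₁]
  [IsScalarTower ℂ N N₁] {P : Plc N N₁} {Q : Web}

theorem PVal.exists_root [IsAlgClosed N₁] {F₁ : N₁[X]} {F : N[X]} (h : PVal P F₁ F)
    (hF : F ≠ 0) {a : N} (ha : F.eval a = 0) : ∃ t, P.Val t a ∧ F₁.eval t = 0 := by
  have hl : F₁ ∈ Polynomial.lifts P.V.subtype := by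
    rw [Polynomial.lifts_iff_coeff_lifts]
    intro n
    exact ⟨⟨F₁.coeff n, (h n).mem⟩, rfl⟩
  obtain ⟨G, hG⟩ := (Polynomial.mem_lifts _).1 hl
  have hG' : G.map P.p = F := by
    ext n
    rw [coeff_map]
    have h1 : P.Val (F₁.coeff n) (P.p (G.coeff n)) := by
      rw [← hG, coeff_map]
      exact ⟨(G.coeff n).2, rfl⟩
    exact h1.unique (h n)
  obtain ⟨t, ht, ht'⟩ := Plc.exists_root P P.V.subtype P.p (fun r => ⟨r.2, rfl⟩) G
    (by rw [hG']; exact hF) (a := a) (by rw [← eval_map, hG', ha])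
  refine ⟨t, ht, ?_⟩
  rw [← hG, eval_map]
  exact ht'

theorem val_two : P.Val (2 : N₁) (2 : N) := by
  have h := P.val_const (2 : N)
  rwa [map_ofNat] at h

theorem val_lam {x₁ y₁ : N₁} {x y : N} (hx : P.Val x₁ x) (hy : P.Val y₁ y) (x0 : x ≠ 0)
    (y0 : y ≠ 0) (i : Fin 4) : P.Val (lam x₁ y₁ i) (lam x y i) := by
  have h2 := char_two N
  fin_cases i
  · exact P.val_one
  · exact (hx.add (hx.inv x0)).div val_two h2
  · exact (hy.add (hy.inv y0)).div val_two h2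
  · exact ((hx.mul hy).add ((hx.mul hy).inv (mul_ne_zero x0 y0))).div val_two h2

theorem val_mv {x₁ y₁ : N₁} {x y : N} (hx : P.Val x₁ x) (hy : P.Val y₁ y)
    (y0 : y ≠ 0) (i : Fin 3) : P.Val (mv x₁ y₁ i) (mv x y i) := by
  fin_cases i
  · exact hy.inv y0
  · exact hx
  · exact P.val_one

theorem val_MB {x₁ y₁ : N₁} {x y : N} (hx : P.Val x₁ x) (hy : P.Val y₁ y) (x0 : x ≠ 0)
    (y0 : y ≠ 0) {a₁ b₁ : Fin 4 → N₁} {a b : Fin 4 → N} (ha : ∀ i, P.Val (a₁ i) (a i))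
    (hb : ∀ i, P.Val (b₁ i) (b i)) : P.Val (MB Q x₁ y₁ a₁ b₁) (MB Q x y a b) :=
  Plc.Val.sum _ fun i _ => (val_lam hx hy x0 y0 i).mul (val_qb ha hb i)

/-- Lifting of isotropic vectors. -/
theorem iso_lift [IsAlgClosed N₁] (hQ : ∀ i, (Q i).IsSymm) {x₁ y₁ : N₁} {x y : N}
    (hx : P.Val x₁ x) (hy : P.Val y₁ y) (x0 : x ≠ 0) (y0 : y ≠ 0) {p₁ q₁ : Fin 4 → N₁}
    {p q : Fin 4 → N} (hp : ∀ i, P.Val (p₁ i) (p i)) (hq : ∀ i, P.Val (q₁ i) (q i)) {s : N}
    (hs : MB Q x y (p + s • q) (p + s • q) = 0)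
    (hne : ¬ (MB Q x y p p = 0 ∧ MB Q x y p q = 0 ∧ MB Q x y q q = 0)) :
    ∃ s₁, P.Val s₁ s ∧ MB Q x₁ y₁ (p₁ + s₁ • q₁) (p₁ + s₁ • q₁) = 0 := by
  have h1 : PVal P (C (MB Q x₁ y₁ p₁ p₁) + C (2 * MB Q x₁ y₁ p₁ q₁) * X +
      C (MB Q x₁ y₁ q₁ q₁) * X ^ 2) (C (MB Q x y p p) + C (2 * MB Q x y p q) * X +
      C (MB Q x y q q) * X ^ 2) :=
    ((pval_C (val_MB hx hy x0 y0 hp hp)).add
      ((pval_C (val_two.mul (val_MB hx hy x0 y0 hp hq))).mul pval_X)).add
      ((pval_C (val_MB hx hy x0 y0 hq hq)).mul (pval_X.pow 2))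
  obtain ⟨s₁, hs₁, h2⟩ := h1.exists_root (a := s) (by
    intro h0
    apply hne
    have e0 := congrArg (fun f => f.coeff 0) h0
    have e1 := congrArg (fun f => f.coeff 1) h0
    have e2 := congrArg (fun f => f.coeff 2) h0
    simp only [coeff_add, coeff_C_mul, coeff_X_pow, coeff_zero, coeff_C, coeff_X] at e0 e1 e2
    norm_num at e0 e1 e2
    exact ⟨e0, e1.resolve_left (char_two N), e2⟩) (by
    rw [MB_line hQ] at hs
    simp only [eval_add, eval_mul, eval_C, eval_X, eval_pow]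
    exact hs)
  refine ⟨s₁, hs₁, ?_⟩
  simp only [eval_add, eval_mul, eval_C, eval_X, eval_pow] at h2
  rw [MB_line hQ]
  exact h2

end val

section cf

/-- `0, j, k, l` are the four indices -/
structure Idx (j k l : Fin 4) : Prop where
  all : ∀ i, i = 0 ∨ i = j ∨ i = k ∨ i = l
  j0 : j ≠ 0
  k0 : k ≠ 0
  l0 : l ≠ 0
  jk : j ≠ k
  jl : j ≠ l
  kl : k ≠ l

/-- the basis of vectors orthogonal to `z` -/
noncomputable def fp {N : Type} [Field N] [Algebra ℂ N] (Q : Web) (x y : N) (z : Fin 4 → N)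
    (j k : Fin 4) : Fin 4 → N :=
  Pi.single k 1 + (-(MB Q x y z (Pi.single k 1)) / MB Q x y z (Pi.single j 1)) • Pi.single j 1

variable {N N₁ : Type} [Field N] [Algebra ℂ N] [Field N₁] [Algebra ℂ N₁] {Q : Web}

theorem vec_eq {j k l : Fin 4} (hI : Idx j k l) (v : Fin 4 → N) (h0 : v 0 = 0) :
    v = v j • Pi.single j 1 + v k • Pi.single k 1 + v l • Pi.single l 1 := by
  funext i
  simp only [Pi.add_apply, Pi.smul_apply, smul_eq_mul, Pi.single_apply]
  rcases hI.all i with h | h | h | h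
  · subst h
    rw [if_neg hI.j0.symm, if_neg hI.k0.symm, if_neg hI.l0.symm, h0]
    ring
  · subst h
    rw [if_pos rfl, if_neg hI.jk, if_neg hI.jl]
    ring
  · subst h
    rw [if_neg hI.jk.symm, if_pos rfl, if_neg hI.kl]
    ring
  · subst h
    rw [if_neg hI.jl.symm, if_neg hI.kl.symm, if_pos rfl]
    ring

theorem MB_fp {x y : N} {z : Fin 4 → N} {j : Fin 4} (k : Fin 4)
    (hj : MB Q x y z (Pi.single j 1) ≠ 0) : MB Q x y z (fp Q x y z j k) = 0 := by
  unfold fp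
  rw [MB_add_right, MB_smul_right, div_mul_cancel₀ _ hj, add_neg_cancel]

theorem vec_fp {x y : N} {z : Fin 4 → N} {j k l : Fin 4} (hI : Idx j k l)
    (hj : MB Q x y z (Pi.single j 1) ≠ 0) {v : Fin 4 → N} (h0 : v 0 = 0)
    (h1 : MB Q x y z v = 0) : v = v k • fp Q x y z j k + v l • fp Q x y z j l := by
  have h2 := vec_eq hI v h0
  have h3 : v j * MB Q x y z (Pi.single j 1) + v k * MB Q x y z (Pi.single k 1) +
      v l * MB Q x y z (Pi.single l 1) = 0 := by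
    rw [← h1]
    conv_rhs => rw [h2]
    rw [MB_add_right, MB_add_right, MB_smul_right, MB_smul_right, MB_smul_right]
  have h4 : v j = v k * (-(MB Q x y z (Pi.single k 1)) / MB Q x y z (Pi.single j 1)) +
      v l * (-(MB Q x y z (Pi.single l 1)) / MB Q x y z (Pi.single j 1)) := by
    field_simp
    linear_combination h3
  unfold fp
  conv_lhs => rw [h2, h4]
  module

theorem fp_zero {x y : N} {z : Fin 4 → N} {j k : Fin 4} (j0 : j ≠ 0) (k0 : k ≠ 0) :
    fp Q x y z j k 0 = 0 := by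
  unfold fp
  simp only [Pi.add_apply, Pi.smul_apply, smul_eq_mul, Pi.single_apply, if_neg j0.symm,
    if_neg k0.symm]
  ring

theorem fp_self {x y : N} {z : Fin 4 → N} {j k : Fin 4} (jk : j ≠ k) :
    fp Q x y z j k k = 1 := by
  unfold fp
  simp only [Pi.add_apply, Pi.smul_apply, smul_eq_mul, Pi.single_apply, if_neg jk.symm, if_true]
  ring

theorem fp_other {x y : N} {z : Fin 4 → N} {j k l : Fin 4} (jl : j ≠ l) (kl : k ≠ l) :
    fp Q x y z j k l = 0 := by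
  unfold fp
  simp only [Pi.add_apply, Pi.smul_apply, smul_eq_mul, Pi.single_apply, if_neg jl.symm,
    if_neg kl.symm]
  ring

/-- An isotropic line `⟨z, r⟩` of the quadric with parameters `u 0`, `u 1`, in general position. -/
structure Cf (Q : Web) (j k l : Fin 4) (u z r : Fin 4 → N) : Prop where
  x0 : u 0 ≠ 0
  y0 : u 1 ≠ 0
  z0 : z 0 = 1
  zk : z k = u 2
  zl : z l = u 3
  r0 : r 0 = 0
  rk : r k = 1
  zz : MB Q (u 0) (u 1) z z = 0
  zr : MB Q (u 0) (u 1) z r = 0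
  rr : MB Q (u 0) (u 1) r r = 0
  ze : MB Q (u 0) (u 1) z (Pi.single j 1) ≠ 0
  nd : ∃ v : Fin 4 → N, v 0 = 0 ∧ MB Q (u 0) (u 1) z v = 0 ∧ MB Q (u 0) (u 1) v v ≠ 0
  lc : cm (mv (u 0) (u 1)) (qq Q r) ≠ 0
  gen : ∀ t : N, cm (mv (u 0) (u 1)) (qq Q (z + t • r)) = 0 → GenW Q (z + t • r)

/-- the quartic -/
noncomputable def qc (Q : Web) (u z r : Fin 4 → N) : N[X] := qm Q (mv (u 0) (u 1)) z r

variable [Algebra N N₁] [IsScalarTower ℂ N N₁] {P : Plc N N₁} {j k l : Fin 4}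
  {u z r : Fin 4 → N} {u₁ : Fin 4 → N₁}

theorem val_single (i j : Fin 4) :
    P.Val ((Pi.single i 1 : Fin 4 → N₁) j) ((Pi.single i 1 : Fin 4 → N) j) := by
  rw [Pi.single_apply, Pi.single_apply]
  split_ifs
  · exact P.val_one
  · exact P.val_zero

theorem val_fp {x₁ y₁ : N₁} {x y : N} (hx : P.Val x₁ x) (hy : P.Val y₁ y) (x0 : x ≠ 0)
    (y0 : y ≠ 0) {z₁ : Fin 4 → N₁} {z : Fin 4 → N} (hz : ∀ i, P.Val (z₁ i) (z i)) {j : Fin 4}
    (hj : MB Q x y z (Pi.single j 1) ≠ 0) (k i : Fin 4) :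
    P.Val (fp Q x₁ y₁ z₁ j k i) (fp Q x y z j k i) := by
  unfold fp
  simp only [Pi.add_apply, Pi.smul_apply, smul_eq_mul]
  exact (val_single k i).add (((val_MB hx hy x0 y0 hz (val_single k)).neg.div
    (val_MB hx hy x0 y0 hz (val_single j)) hj).mul (val_single j i))

/-- **Lifting of configurations.** -/
theorem Cf.lift [IsAlgClosed N₁] (hQ : ∀ i, (Q i).IsSymm) (hI : Idx j k l)
    (h : Cf Q j k l u z r) (hu : ∀ i, P.Val (u₁ i) (u i)) :
    ∃ z₁ r₁ : Fin 4 → N₁, Cf Q j k l u₁ z₁ r₁ ∧ (∀ i, P.Val (z₁ i) (z i)) ∧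
      (∀ i, P.Val (r₁ i) (r i)) := by
  -- the point
  let zb : Fin 4 → N := fun i => if i = j then 0 else z i
  let zb₁ : Fin 4 → N₁ := fun i => if i = j then 0 else if i = 0 then 1 else if i = k then u₁ 2
    else u₁ 3
  have hzb : ∀ i, P.Val (zb₁ i) (zb i) := by
    intro i
    change P.Val (if i = j then 0 else if i = 0 then 1 else if i = k then u₁ 2 else u₁ 3)
      (if i = j then 0 else z i)
    rcases hI.all i with h1 | h1 | h1 | h1
    · subst h1
      rw [if_neg hI.j0.symm, if_neg hI.j0.symm, if_pos rfl, h.z0]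
      exact P.val_one
    · subst h1
      rw [if_pos rfl, if_pos rfl]
      exact P.val_zero
    · subst h1
      rw [if_neg hI.jk.symm, if_neg hI.jk.symm, if_neg hI.k0, if_pos rfl, h.zk]
      exact hu 2
    · subst h1
      rw [if_neg hI.jl.symm, if_neg hI.jl.symm, if_neg hI.l0, if_neg hI.kl.symm, h.zl]
      exact hu 3
  have hz : z = zb + z j • Pi.single j 1 := by
    funext i
    change z i = (if i = j then 0 else z i) + z j * (Pi.single j (1 : N) : Fin 4 → N) i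
    rw [Pi.single_apply]
    split_ifs with h1
    · rw [h1]; ring
    · ring
  obtain ⟨s₁, hs₁, hiso⟩ := iso_lift (P := P) hQ (hu 0) (hu 1) h.x0 h.y0 hzb (val_single j)
    (s := z j) (by rw [← hz]; exact h.zz) (by
    rintro ⟨-, h2, h3⟩
    apply h.ze
    rw [hz, MB_add_left, MB_smul_left, h2, h3, mul_zero, add_zero])
  obtain ⟨z₁, hz₁⟩ : ∃ z₁, z₁ = zb₁ + s₁ • Pi.single j 1 := ⟨_, rfl⟩
  rw [← hz₁] at hiso
  have vz : ∀ i, P.Val (z₁ i) (z i) := by
    intro i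
    rw [hz₁, hz]
    exact (hzb i).add (hs₁.mul (val_single j i))
  have z10 : z₁ 0 = 1 := by
    rw [hz₁]
    change (if (0 : Fin 4) = j then 0 else if (0 : Fin 4) = 0 then 1 else if (0 : Fin 4) = k
      then u₁ 2 else u₁ 3) + s₁ * (Pi.single j (1 : N₁) : Fin 4 → N₁) 0 = 1
    rw [Pi.single_apply, if_neg hI.j0.symm, if_pos rfl, if_neg hI.j0.symm]
    ring
  have z1k : z₁ k = u₁ 2 := by
    rw [hz₁]
    change (if k = j then 0 else if k = 0 then 1 else if k = k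
      then u₁ 2 else u₁ 3) + s₁ * (Pi.single j (1 : N₁) : Fin 4 → N₁) k = _
    rw [Pi.single_apply, if_neg hI.jk.symm, if_neg hI.k0, if_pos rfl, if_neg hI.jk.symm]
    ring
  have z1l : z₁ l = u₁ 3 := by
    rw [hz₁]
    change (if l = j then 0 else if l = 0 then 1 else if l = k
      then u₁ 2 else u₁ 3) + s₁ * (Pi.single j (1 : N₁) : Fin 4 → N₁) l = _
    rw [Pi.single_apply, if_neg hI.jl.symm, if_neg hI.l0, if_neg hI.kl.symm, if_neg hI.jl.symm]
    ring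
  have ze1 : MB Q (u₁ 0) (u₁ 1) z₁ (Pi.single j 1) ≠ 0 :=
    (val_MB (hu 0) (hu 1) h.x0 h.y0 vz (val_single j)).ne_zero h.ze
  -- the direction
  have vp := val_fp (Q := Q) (hu 0) (hu 1) h.x0 h.y0 vz h.ze k
  have vq := val_fp (Q := Q) (hu 0) (hu 1) h.x0 h.y0 vz h.ze l
  have hr : r = fp Q (u 0) (u 1) z j k + r l • fp Q (u 0) (u 1) z j l := by
    have h1 := vec_fp hI h.ze h.r0 h.zr
    rwa [h.rk, one_smul] at h1
  obtain ⟨v, v0, vzv, vv⟩ := h.nd
  have hv := vec_fp hI h.ze v0 vzv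
  obtain ⟨t₁, ht₁, hiso2⟩ := iso_lift (P := P) hQ (hu 0) (hu 1) h.x0 h.y0 vp vq
    (s := r l) (by rw [← hr]; exact h.rr) (by
    rintro ⟨h1, h2, h3⟩
    apply vv
    rw [hv, MB_add_left, MB_add_right, MB_add_right, MB_smul_left, MB_smul_left, MB_smul_left,
      MB_smul_left, MB_smul_right, MB_smul_right, MB_smul_right, MB_smul_right, h1, h2, h3,
      MB_comm hQ _ _ _ (fp Q (u 0) (u 1) z j k), h2]
    ring)
  obtain ⟨r₁, hr₁⟩ : ∃ r₁, r₁ = fp Q (u₁ 0) (u₁ 1) z₁ j k + t₁ • fp Q (u₁ 0) (u₁ 1) z₁ j l :=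
    ⟨_, rfl⟩
  rw [← hr₁] at hiso2
  have vr : ∀ i, P.Val (r₁ i) (r i) := by
    intro i
    rw [hr₁, hr]
    exact (vp i).add (ht₁.mul (vq i))
  have r10 : r₁ 0 = 0 := by
    rw [hr₁]
    simp only [Pi.add_apply, Pi.smul_apply, smul_eq_mul, fp_zero hI.j0 hI.k0, fp_zero hI.j0 hI.l0]
    ring
  have r1k : r₁ k = 1 := by
    rw [hr₁]
    simp only [Pi.add_apply, Pi.smul_apply, smul_eq_mul, fp_self hI.jk, fp_other hI.jk hI.kl.symm]
    ring
  have zr1 : MB Q (u₁ 0) (u₁ 1) z₁ r₁ = 0 := by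
    rw [hr₁, MB_add_right, MB_smul_right, MB_fp _ ze1, MB_fp _ ze1]
    ring
  have vqc : PVal P (qm Q (mv (u₁ 0) (u₁ 1)) z₁ r₁) (qm Q (mv (u 0) (u 1)) z r) :=
    pval_qm (val_mv (hu 0) (hu 1) h.y0) vz vr
  have x10 : u₁ 0 ≠ 0 := (hu 0).ne_zero h.x0
  have y10 : u₁ 1 ≠ 0 := (hu 1).ne_zero h.y0
  refine ⟨z₁, r₁, ⟨x10, y10, z10, z1k, z1l, r10, r1k, hiso, zr1, hiso2, ze1, ?_, ?_, ?_⟩, vz, vr⟩
  · refine ⟨algebraMap N N₁ (v k) • fp Q (u₁ 0) (u₁ 1) z₁ j k +
      algebraMap N N₁ (v l) • fp Q (u₁ 0) (u₁ 1) z₁ j l, ?_, ?_, ?_⟩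
    · simp only [Pi.add_apply, Pi.smul_apply, smul_eq_mul, fp_zero hI.j0 hI.k0,
        fp_zero hI.j0 hI.l0]
      ring
    · rw [MB_add_right, MB_smul_right, MB_smul_right, MB_fp _ ze1, MB_fp _ ze1]
      ring
    · have h1 : ∀ i, P.Val ((algebraMap N N₁ (v k) • fp Q (u₁ 0) (u₁ 1) z₁ j k +
          algebraMap N N₁ (v l) • fp Q (u₁ 0) (u₁ 1) z₁ j l) i) (v i) := by
        intro i
        conv => arg 3; rw [hv]
        exact ((P.val_const _).mul (vp i)).add ((P.val_const _).mul (vq i))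
      exact (val_MB (hu 0) (hu 1) h.x0 h.y0 h1 h1).ne_zero vv
  · have h1 := vqc 4
    rw [coeff_qm, coeff_qm] at h1
    exact h1.ne_zero h.lc
  · intro t ht
    obtain ⟨a, ha⟩ := finite_root vqc (natDegree_qm Q _ z₁ r₁) (by
      rw [coeff_qm]
      exact h.lc) (t := t) (by rw [eval_qm, ht])
    have h1 := vqc.eval ha
    rw [eval_qm, ht, eval_qm] at h1
    have h2 := P.val_zero.unique h1
    refine GenW.of_val (P := P) (o := z + a • r) ?_ (h.gen a h2.symm) ?_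
    · intro i
      exact (vz i).add (ha.mul (vr i))
    · refine st_of_cm x10 y10 ht ?_
      rw [MB_line hQ, hiso, hiso2, zr1]
      ring

end cf

end Vale.Agent.P297.H212.Camp
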