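import Vale.Agent.P297.H212.Camp.Gen

/-!
Two points with the same image: the points of the octic on the line which joins them are generic.
-/

set_option linter.unusedSectionVars false

open IntermediateField Polynomial

namespace Vale.Agent.P297.H212.Camp

open Vale.Agent.P297 Vale.Agent.P297.Gen Vale.Agent.P297.Z3 Vale.Agent.P297.C8
open Vale.Agent.P297.H777

section steiner

variable {N : Type} [Field N] [Algebra ℂ N] [Infinite N]

theorem st_of_all {y f : Fin 4 → N} (h : ∀ b : N, st (y + b • f) = 0) : st f = 0 := by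
  let r : N[X] := st (fun i => X * C (y i) + C (f i))
  have hr : ∀ t : N, r.eval t = st (t • y + f) := by
    intro t
    simp only [r, st, eval_sub, eval_add, eval_mul, eval_pow, eval_X, eval_C, eval_ofNat,
      Pi.add_apply, Pi.smul_apply, smul_eq_mul]
  have h1 : X * r = 0 := by
    apply Polynomial.funext
    intro t
    rw [eval_mul, eval_X, eval_zero, hr]
    by_cases ht : t = 0
    · rw [ht, zero_mul]
    · have h2 : t • y + f = t • (y + t⁻¹ • f) := by
        rw [smul_add, smul_smul, mul_inv_cancel₀ ht, one_smul]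
      rw [h2, st_smul, h, mul_zero, mul_zero]
  have h2 : r = 0 := (mul_eq_zero.1 h1).resolve_left X_ne_zero
  have h3 := hr 0
  rw [h2, eval_zero, zero_smul, zero_add] at h3
  exact h3.symm

/-- **There are no lines on the Steiner surface** through a general point. -/
theorem st_line {y f : Fin 4 → N} (h1 : y 1 ≠ 0) (h2 : y 2 ≠ 0) (h3 : y 3 ≠ 0)
    (h20 : (2 : N) ≠ 0) (h : ∀ b : N, st (y + b • f) = 0) : ∃ κ : N, f = κ • y := by
  have hall : ∀ a b : N, st (a • y + b • f) = 0 := by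
    intro a b
    by_cases ha : a = 0
    · rw [ha, zero_smul, zero_add, st_smul, st_of_all h, mul_zero]
    · have h4 : a • y + b • f = a • (y + (a⁻¹ * b) • f) := by
        rw [smul_add, smul_smul, mul_inv_cancel_left₀ ha]
      rw [h4, st_smul, h, mul_zero]
  have e1 := hall (- f 1) (y 1)
  have e2 := hall (- f 2) (y 2)
  have e3 := hall (- f 3) (y 3)
  simp only [st, Pi.add_apply, Pi.smul_apply, smul_eq_mul] at e1 e2 e3
  have k1 : (y 1 * f 2 - y 2 * f 1) * (y 1 * f 3 - y 3 * f 1) = 0 := by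
    apply pow_eq_zero_iff two_ne_zero |>.1
    linear_combination e1
  have k2 : (y 1 * f 2 - y 2 * f 1) * (y 2 * f 3 - y 3 * f 2) = 0 := by
    apply pow_eq_zero_iff two_ne_zero |>.1
    linear_combination e2
  have k3 : (y 1 * f 3 - y 3 * f 1) * (y 2 * f 3 - y 3 * f 2) = 0 := by
    apply pow_eq_zero_iff two_ne_zero |>.1
    linear_combination e3
  have k4 : y 3 * (y 1 * f 2 - y 2 * f 1) - y 2 * (y 1 * f 3 - y 3 * f 1) +
      y 1 * (y 2 * f 3 - y 3 * f 2) = 0 := by ring
  have k5 : y 1 * f 2 - y 2 * f 1 = 0 := by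
    by_contra hne
    have k6 := (mul_eq_zero.1 k1).resolve_left hne
    have k7 := (mul_eq_zero.1 k2).resolve_left hne
    rw [k6, k7, mul_zero, mul_zero, sub_zero, add_zero] at k4
    exact hne ((mul_eq_zero.1 k4).resolve_left h3)
  have k6 : y 1 * f 3 - y 3 * f 1 = 0 := by
    by_contra hne
    have k7 := (mul_eq_zero.1 k3).resolve_left hne
    rw [k5, k7, mul_zero, mul_zero, add_zero, zero_sub, neg_eq_zero] at k4
    exact hne ((mul_eq_zero.1 k4).resolve_left h2)
  obtain ⟨κ, hκ⟩ : ∃ κ, κ = f 1 / y 1 := ⟨_, rfl⟩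
  have f1 : f 1 = κ * y 1 := by rw [hκ, div_mul_cancel₀ _ h1]
  have f2 : f 2 = κ * y 2 := by
    apply mul_left_cancel₀ h1
    rw [f1] at k5
    linear_combination k5
  have f3 : f 3 = κ * y 3 := by
    apply mul_left_cancel₀ h1
    rw [f1] at k6
    linear_combination k6
  have e4 := hall (1 - κ) 1
  have e5 := hall 1 0
  simp only [st, Pi.add_apply, Pi.smul_apply, smul_eq_mul, f1, f2, f3] at e4 e5
  have f0 : f 0 = κ * y 0 := by
    have h4 : (2 * (y 1 * y 2 * y 3)) * (f 0 - κ * y 0) = 0 := by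
      linear_combination e5 - e4
    exact sub_eq_zero.1 ((mul_eq_zero.1 h4).resolve_left
      (mul_ne_zero h20 (mul_ne_zero (mul_ne_zero h1 h2) h3)))
  refine ⟨κ, ?_⟩
  funext i
  fin_cases i
  · exact f0
  · exact f1
  · exact f2
  · exact f3

end steiner

section pair

variable {N : Type} [Field N] [Algebra ℂ N]

/-- The conditions on the web which are used over `N`. -/
structure WebN (Q : Web) (N : Type) [Field N] [Algebra ℂ N] : Prop where
  symm : ∀ i, (Q i).IsSymm
  zero : ∀ p : Fin 4 → N, qq Q p = 0 → p = 0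
  int : ∀ E : IntermediateField ℂ N, Closed E → ∀ p : Fin 4 → N, (∀ i, qq Q p i ∈ E) →
    ∀ j, p j ∈ E
  rk : ∀ p u v : Fin 4 → N, st (qq Q p) = 0 → p ≠ 0 → qb Q p u = 0 → qb Q p v = 0 → u ≠ 0 →
    (∃ c : N, v = c • u) ∨ ∃ (c : N) (x l : Fin 4 → ℂ), c ≠ 0 ∧
      p = c • (fun j => algebraMap ℂ N (x j)) ∧ ∑ i, l i * qq Q x i = 0 ∧
        ∃ w : Fin 4 → ℂ, ∑ i, l i * qb Q x w i ≠ 0
  jac : ∀ p u : Fin 4 → N, GenW Q p → qb Q p u = 0 → u = 0

/-- Two different points with the same image, the first is generic. -/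
structure Pair (Q : Web) (o o' : Fin 4 → N) : Prop where
  gen : GenW Q o
  eq : qq Q o' = qq Q o
  ne : o' ≠ o
  ne' : o' ≠ -o

variable {K : Type} [Field K] [Algebra ℂ K] {Q : Web} {x : Fin 4 → K} {o o' : Fin 4 → N}

theorem char_two (N : Type) [Field N] [Algebra ℂ N] : (2 : N) ≠ 0 := by
  have h : CharZero N := charZero_of_injective_algebraMap (algebraMap ℂ N).injective
  exact two_ne_zero

theorem smul_zero' {c : N} {p : Fin 4 → N} (h : c • p = 0) (hp : p ≠ 0) : c = 0 :=
  (smul_eq_zero.1 h).resolve_right hp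

theorem GenW.ne_zero {p : Fin 4 → N} (h : GenW Q p) : p ≠ 0 := by
  rintro rfl
  exact h.ne rfl

theorem qb_neg_right (Q : Web) (p q : Fin 4 → N) : qb Q p (-q) = - qb Q p q := by
  have h := qb_smul_right Q (-1 : N) p q
  rwa [neg_one_smul, neg_one_smul] at h

theorem Pair.xy (W : WebN Q N) (h : Pair Q o o') : qb Q (o + o') (o - o') = 0 := by
  rw [sub_eq_add_neg, qb_add_left, qb_add_right, qb_add_right, qb_neg_right, qb_neg_right,
    qb_comm W.symm o' o]
  have h1 := h.eq
  unfold qq at h1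
  rw [h1]
  abel

theorem Pair.qqx (W : WebN Q N) (h : Pair Q o o') :
    qq Q (o + o') = (2 : N) • (qq Q o + qb Q o o') := by
  rw [qq_add W.symm, h.eq]
  module

theorem Pair.qqy (W : WebN Q N) (h : Pair Q o o') :
    qq Q (o - o') = (2 : N) • (qq Q o - qb Q o o') := by
  have h1 : qq Q (-o') = qq Q o' := by
    have h2 := qq_smul Q (-1 : N) o'
    rwa [neg_one_smul, neg_one_sq, one_smul] at h2
  rw [sub_eq_add_neg, qq_add W.symm, h1, qb_neg_right, h.eq]
  module

theorem Pair.indep (hx : C8.IsFF Q x) (h : Pair Q o o') {a b : N}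
    (hab : a • (o + o') + b • (o - o') = 0) : a = 0 ∧ b = 0 := by
  have h1 : (a + b) • o = (b - a) • o' := by
    have h2 : (a + b) • o - (b - a) • o' = a • (o + o') + b • (o - o') := by module
    rw [← sub_eq_zero, h2, hab]
  by_cases hba : b - a = 0
  · rw [hba, zero_smul] at h1
    have h2 := smul_zero' h1 (GenW.ne_zero h.gen)
    have h3 : b = a := sub_eq_zero.1 hba
    rw [h3] at h2
    have h4 : (2 : N) * a = 0 := by linear_combination h2
    have h5 := (mul_eq_zero.1 h4).resolve_left (char_two N)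
    exact ⟨h5, h3.trans h5⟩
  · exfalso
    obtain ⟨κ, hκ⟩ : ∃ κ, κ = (a + b) / (b - a) := ⟨_, rfl⟩
    have h2 : o' = κ • o := by
      have h3 : (b - a)⁻¹ • ((a + b) • o) = (b - a)⁻¹ • ((b - a) • o') := by rw [h1]
      rw [smul_smul, smul_smul, inv_mul_cancel₀ hba, one_smul] at h3
      rw [← h3, hκ, inv_mul_eq_div]
    have h3 := h.eq
    rw [h2, qq_smul] at h3
    have h4 := congrFun h3 1
    simp only [Pi.smul_apply, smul_eq_mul] at h4
    have h5 : κ ^ 2 = 1 := by
      apply mul_right_cancel₀ (qq_ne hx h.gen (i := 1) (by decide))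
      rw [h4, one_mul]
    have h6 : (κ - 1) * (κ + 1) = 0 := by linear_combination h5
    rcases mul_eq_zero.1 h6 with h7 | h7
    · exact h.ne (by rw [h2, sub_eq_zero.1 h7, one_smul])
    · exact h.ne' (by rw [h2, eq_neg_of_add_eq_zero_left h7, neg_one_smul])

theorem infinite_of (N : Type) [Field N] [Algebra ℂ N] : Infinite N :=
  Infinite.of_injective (algebraMap ℂ N) (algebraMap ℂ N).injective

variable [IsAlgClosed N]

/-- The line is not contained in the octic. -/
theorem Pair.st_ne (W : WebN Q N) (hx : C8.IsFF Q x) (h : Pair Q o o')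
    (hall : ∀ a b : N, a ≠ 0 → st (a • qq Q (o + o') + b • qq Q (o - o')) = 0) : False := by
  have := infinite_of N
  have h20 := char_two N
  obtain ⟨g, hg⟩ : ∃ g, g = qq Q (o + o') := ⟨_, rfl⟩
  obtain ⟨k, hk⟩ : ∃ k, k = qq Q (o - o') := ⟨_, rfl⟩
  rw [← hg, ← hk] at hall
  have hgk : g + k = (4 : N) • qq Q o := by
    rw [hg, hk, h.qqx W, h.qqy W]
    module
  have h40 : (4 : N) ≠ 0 := by
    have h4 : (4 : N) = 2 * 2 := by norm_num
    rw [h4]
    exact mul_ne_zero h20 h20
  obtain ⟨κ, hκ⟩ := st_line (y := qq Q o) (f := k) (qq_ne hx h.gen (by decide))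
    (qq_ne hx h.gen (by decide)) (qq_ne hx h.gen (by decide)) h20 (by
    intro b
    have h1 : qq Q o + b • k = ((4 : N)⁻¹) • g + ((4 : N)⁻¹ + b) • k := by
      have h2 : qq Q o = ((4 : N)⁻¹) • (g + k) := by
        rw [hgk, smul_smul, inv_mul_cancel₀ h40, one_smul]
      rw [h2]
      module
    rw [h1]
    exact hall _ _ (inv_ne_zero h40))
  have hg' : g = (4 - κ) • qq Q o := by
    have h1 : g = (4 : N) • qq Q o - k := by rw [← hgk]; abel
    rw [h1, hκ]
    module
  obtain ⟨a, ha⟩ := IsAlgClosed.exists_pow_nat_eq κ (n := 2) (by norm_num)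
  obtain ⟨b, hb⟩ := IsAlgClosed.exists_pow_nat_eq (-(4 - κ)) (n := 2) (by norm_num)
  have h1 : qq Q (a • (o + o') + b • (o - o')) = 0 := by
    rw [qq_add W.symm, qq_smul, qq_smul, qb_smul_left, qb_smul_right, h.xy W, ← hg, ← hk, hg', hκ,
      ha, hb]
    module
  have h2 := h.indep hx (W.zero _ h1)
  rw [h2.1] at ha
  rw [h2.2] at hb
  apply h40
  linear_combination hb - ha

/-- The line is not defined over a field of transcendence degree one. -/
theorem Pair.core (W : WebN Q N) (hx : C8.IsFF Q x) (h : Pair Q o o') {θ a b : N} (ha : a ≠ 0)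
    (hb : b ≠ 0) {X Y : Fin 4 → N} (hX : ∀ i, X i ∈ cl0 {θ}) (hY : ∀ i, Y i ∈ cl0 {θ})
    (h1 : o + o' = a • X) (h2 : o - o' = b • Y) : False := by
  have h20 := char_two N
  obtain ⟨E, hE⟩ : ∃ E, E = cl0 ({θ} : Set N) := ⟨_, rfl⟩
  have hEc : Closed E := by rw [hE]; exact closed_cl0 _
  rw [← hE] at hX hY
  have hqb : qb Q X Y = 0 := by
    have h3 := h.xy W
    rw [h1, h2, qb_smul_left, qb_smul_right, smul_smul] at h3
    exact (smul_eq_zero.1 h3).resolve_left (mul_ne_zero ha hb)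
  -- the coefficients
  have hqE : ∀ Z : Fin 4 → N, (∀ i, Z i ∈ E) → ∀ i, qq Q Z i ∈ E := by
    intro Z hZ i
    rw [qq_apply]
    exact sum_mem fun k _ => sum_mem fun l _ =>
      mul_mem (E.algebraMap_mem _) (mul_mem (hZ k) (hZ l))
  let u : Fin 4 → E := fun i => ⟨qq Q X i, hqE X hX i⟩
  let v : Fin 4 → E := fun i => ⟨qq Q Y i, hqE Y hY i⟩
  let P : (E : Type)[X] := st (fun i => Polynomial.C (u i) + Polynomial.X ^ 2 * Polynomial.C (v i))
  have hP : ∀ t : N, aeval t P = st (qq Q X + t ^ 2 • qq Q Y) := by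
    intro t
    have h3 := map_st ((aeval t : (E : Type)[X] →ₐ[E] N).restrictScalars ℂ)
      (fun i => Polynomial.C (u i) + Polynomial.X ^ 2 * Polynomial.C (v i))
    have h4 : aeval t P = ((aeval t : (E : Type)[X] →ₐ[E] N).restrictScalars ℂ)
      (st (fun i => Polynomial.C (u i) + Polynomial.X ^ 2 * Polynomial.C (v i))) := rfl
    rw [h4, h3]
    congr 1
    funext i
    change aeval t (Polynomial.C (u i) + Polynomial.X ^ 2 * Polynomial.C (v i)) = _
    rw [map_add, map_mul, map_pow, aeval_C, aeval_C, aeval_X]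
    rfl
  have hqq : ∀ t : N, qq Q (X + t • Y) = qq Q X + t ^ 2 • qq Q Y := by
    intro t
    rw [qq_add W.symm, qb_smul_right, qq_smul, hqb]
    module
  have ho : o = (a / 2) • (X + (b / a) • Y) := by
    have h3 : (2 : N) • o = a • X + b • Y := by rw [← h1, ← h2]; module
    have h4 : o = (2 : N)⁻¹ • ((2 : N) • o) := by rw [smul_smul, inv_mul_cancel₀ h20, one_smul]
    rw [h4, h3, smul_add, smul_add, smul_smul, smul_smul, smul_smul]
    congr 2
    · ring
    · field_simp
  have ha2 : a / 2 ≠ 0 := div_ne_zero ha h20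
  have hroot : aeval (b / a) P = 0 := by
    rw [hP, ← hqq]
    have h3 := h.gen.zero
    rw [ho, qq_smul, st_smul] at h3
    exact (mul_eq_zero.1 h3).resolve_left (pow_ne_zero _ (pow_ne_zero _ ha2))
  have hP0 : P ≠ 0 := by
    intro hP0
    apply h.st_ne W hx
    intro c d hc
    obtain ⟨t, ht⟩ := IsAlgClosed.exists_pow_nat_eq (d * b ^ 2 / (c * a ^ 2)) (n := 2) (by norm_num)
    have h3 := hP t
    rw [hP0, map_zero, ht] at h3
    have h4 : c • qq Q (o + o') + d • qq Q (o - o') =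
        (c * a ^ 2) • (qq Q X + (d * b ^ 2 / (c * a ^ 2)) • qq Q Y) := by
      rw [h1, h2, qq_smul, qq_smul, smul_add, smul_smul, smul_smul, smul_smul,
        mul_div_cancel₀ _ (mul_ne_zero hc (pow_ne_zero 2 ha))]
    rw [h4, st_smul, ← h3, mul_zero]
  have hs : b / a ∈ E := hEc _ ⟨P, hP0, hroot⟩
  refine GenW.notMem h.gen (θ := θ) (c := (a / 2)⁻¹) (inv_ne_zero ha2) fun i => ?_
  have h3 : (a / 2)⁻¹ * o i = X i + (b / a) * Y i := by
    rw [ho]
    simp only [Pi.smul_apply, Pi.add_apply, smul_eq_mul]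
    rw [inv_mul_cancel_left₀ ha2]
  rw [h3, ← hE]
  exact add_mem (hX i) (mul_mem hs (hY i))

/-- A vector of the kernel over a closed field. -/
theorem exists_ker {E : IntermediateField ℂ N} {Q : Web} {X : Fin 4 → N} (hX : ∀ i, X i ∈ E)
    {y : Fin 4 → N} (hy : y ≠ 0) (h : qb Q X y = 0) :
    ∃ Y : Fin 4 → N, Y ≠ 0 ∧ (∀ i, Y i ∈ E) ∧ qb Q X Y = 0 := by
  classical
  let A : Matrix (Fin 4) (Fin 4) E := fun i b => ∑ a, algebraMap ℂ E (Q i a b) * ⟨X a, hX a⟩
  have hAe : ∀ i b, algebraMap E N (A i b) = ∑ a, algebraMap ℂ N (Q i a b) * X a := by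
    intro i b
    change algebraMap E N (∑ a, algebraMap ℂ E (Q i a b) * ⟨X a, hX a⟩) = _
    rw [map_sum]
    refine Finset.sum_congr rfl fun a _ => ?_
    rw [map_mul]
    rfl
  have hA : ∀ z : Fin 4 → N, (A.map (algebraMap E N)).mulVec z = qb Q X z := by
    intro z
    funext i
    change ∑ b, algebraMap E N (A i b) * z b = _
    simp only [hAe, Finset.sum_mul, qb_apply]
    rw [Finset.sum_comm]
    exact Finset.sum_congr rfl fun a _ => Finset.sum_congr rfl fun b _ => by ring
  have h1 : (A.map (algebraMap E N)).det = 0 :=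
    Matrix.exists_mulVec_eq_zero_iff.1 ⟨y, hy, by rw [hA, h]⟩
  have h2 : A.det = 0 := by
    apply (algebraMap E N).injective
    rw [RingHom.map_det, map_zero]
    exact h1
  obtain ⟨w, hw, hw0⟩ := Matrix.exists_mulVec_eq_zero_iff.2 h2
  refine ⟨fun i => (w i : N), ?_, fun i => (w i).2, ?_⟩
  · intro h3
    apply hw
    funext i
    exact Subtype.ext (congrFun h3 i)
  · rw [← hA]
    funext i
    have h3 := congrArg (algebraMap E N) (congrFun hw0 i)
    simp only [Matrix.mulVec, dotProduct, map_sum, map_mul, Pi.zero_apply, map_zero,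
      Matrix.map_apply] at h3 ⊢
    exact h3

/-- The sum and the difference are not complex vectors where the rank is small. -/
theorem no_complex (hQ : ∀ i, (Q i).IsSymm) (hx : C8.IsFF Q x) (ho : GenW Q o) {p : Fin 4 → N}
    (hp : (2 : N) • qb Q o p = qq Q p) (hp0 : p ≠ 0) {e t : N} (he : e ≠ 0) {x₀ l : Fin 4 → ℂ}
    (h : e • p = t • (fun j => algebraMap ℂ N (x₀ j)))
    (h1 : ∑ i, l i * qq Q x₀ i = 0) (h2 : ∃ w : Fin 4 → ℂ, ∑ i, l i * qb Q x₀ w i ≠ 0) :
    False := by
  obtain ⟨w, hw⟩ := h2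
  have h20 := char_two N
  obtain ⟨s, hs⟩ : ∃ s, s = e⁻¹ * t := ⟨_, rfl⟩
  have hps : p = s • (fun j => algebraMap ℂ N (x₀ j)) := by
    rw [hs, mul_smul, ← h, smul_smul, inv_mul_cancel₀ he, one_smul]
  have hs0 : s ≠ 0 := by
    rintro rfl
    exact hp0 (by rw [hps, zero_smul])
  let L : Fin 4 → ℂ := fun a => ∑ i, ∑ b, l i * (Q i a b * x₀ b)
  have hL : ∀ {R : Type} [CommRing R] [Algebra ℂ R] (v : Fin 4 → R),
      ∑ a, algebraMap ℂ R (L a) * v a =
        ∑ i, algebraMap ℂ R (l i) * qb Q v (fun j => algebraMap ℂ R (x₀ j)) i := by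
    intro R _ _ v
    simp only [L, qb_apply, map_sum, map_mul, Finset.sum_mul, Finset.mul_sum]
    rw [Finset.sum_comm]
    refine Finset.sum_congr rfl fun i _ => Finset.sum_congr rfl fun a _ =>
      Finset.sum_congr rfl fun b _ => by ring
  have h3 : ∑ i, algebraMap ℂ N (l i) * qb Q o (fun j => algebraMap ℂ N (x₀ j)) i = 0 := by
    have h4 : ∑ i, algebraMap ℂ N (l i) * (2 * (s * qb Q o (fun j => algebraMap ℂ N (x₀ j)) i)) =
        ∑ i, algebraMap ℂ N (l i) * (s ^ 2 * algebraMap ℂ N (qq Q x₀ i)) := by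
      refine Finset.sum_congr rfl fun i _ => ?_
      have h5 := congrFun hp i
      rw [hps, qb_smul_right, qq_smul] at h5
      have h6 := map_qq Q (Algebra.ofId ℂ N) x₀ i
      change algebraMap ℂ N (qq Q x₀ i) = qq Q (fun j => algebraMap ℂ N (x₀ j)) i at h6
      rw [h6]
      simp only [Pi.smul_apply, smul_eq_mul] at h5
      rw [h5]
    have h5 : ∑ i, algebraMap ℂ N (l i) * (s ^ 2 * algebraMap ℂ N (qq Q x₀ i)) = 0 := by
      have h6 : ∑ i, algebraMap ℂ N (l i) * (s ^ 2 * algebraMap ℂ N (qq Q x₀ i)) =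
          s ^ 2 * algebraMap ℂ N (∑ i, l i * qq Q x₀ i) := by
        rw [map_sum, Finset.mul_sum]
        refine Finset.sum_congr rfl fun i _ => ?_
        rw [map_mul]
        ring
      rw [h6, h1, map_zero, mul_zero]
    have h6 : ∑ i, algebraMap ℂ N (l i) * (2 * (s * qb Q o (fun j => algebraMap ℂ N (x₀ j)) i)) =
        (2 * s) * ∑ i, algebraMap ℂ N (l i) * qb Q o (fun j => algebraMap ℂ N (x₀ j)) i := by
      rw [Finset.mul_sum]
      exact Finset.sum_congr rfl fun i _ => by ring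
    rw [h6, h5] at h4
    exact (mul_eq_zero.1 h4).resolve_left (mul_ne_zero h20 hs0)
  have hf : (∑ a, MvPolynomial.C (L a) * MvPolynomial.X a : MvPolynomial (Fin 4) ℂ).IsHomogeneous
      1 := by
    refine MvPolynomial.IsHomogeneous.sum _ _ _ fun a _ => ?_
    have h4 := (MvPolynomial.isHomogeneous_C (Fin 4) (L a)).mul (MvPolynomial.isHomogeneous_X ℂ a)
    rwa [zero_add] at h4
  refine form_ne hx ho hf (by norm_num) ?_ ?_
  · intro h4
    have h5 := congrArg (MvPolynomial.aeval w) h4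
    simp only [map_sum, map_mul, MvPolynomial.aeval_C, MvPolynomial.aeval_X, map_zero] at h5
    rw [hL w] at h5
    apply hw
    have h6 : (fun j => algebraMap ℂ ℂ (x₀ j)) = x₀ := rfl
    rw [h6] at h5
    rw [← h5]
    refine Finset.sum_congr rfl fun i _ => ?_
    rw [qb_comm hQ x₀ w]
    rfl
  · simp only [map_sum, map_mul, MvPolynomial.aeval_C, MvPolynomial.aeval_X]
    rw [hL o, h3]

theorem Pair.two_qb (W : WebN Q N) (h : Pair Q o o') :
    (2 : N) • qb Q o (o - o') = qq Q (o - o') ∧ (2 : N) • qb Q o (o + o') = qq Q (o + o') := by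
  have h1 := h.xy W
  have h2 : (2 : N) • o = (o + o') + (o - o') := by module
  constructor
  · rw [← qb_smul_left, h2, qb_add_left, h1, zero_add]
    rfl
  · rw [← qb_smul_left, h2, qb_add_left, qb_comm W.symm (o - o'), h1, add_zero]
    rfl

/-- **[GEN]** The points of the octic on the line are generic. -/
theorem Pair.gen_pt (W : WebN Q N) (hx : C8.IsFF Q x) (h : Pair Q o o') {a b : N}
    (hab : a ≠ 0 ∨ b ≠ 0) (h0 : st (qq Q (a • (o + o') + b • (o - o'))) = 0) :
    GenW Q (a • (o + o') + b • (o - o')) := by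
  by_contra hn
  have h20 := char_two N
  have hp : a • (o + o') + b • (o - o') ≠ 0 := by
    intro h1
    obtain ⟨h2, h3⟩ := h.indep hx h1
    rcases hab with h4 | h4
    · exact h4 h2
    · exact h4 h3
  obtain ⟨θ, c, hc, hE⟩ := exists_of_not hx hp h0 hn
  have hx0 : o + o' ≠ 0 := fun h1 => h.ne' (eq_neg_of_add_eq_zero_right h1)
  have hy0 : o - o' ≠ 0 := fun h1 => h.ne (sub_eq_zero.1 h1).symm
  have hqb := h.xy W
  by_cases ha : a = 0
  · -- `p = b • (o - o')`
    have hb : b ≠ 0 := hab.resolve_left (fun h1 => h1 ha)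
    have hcb : c * b ≠ 0 := mul_ne_zero hc hb
    have hY : ∀ i, ((c * b) • (o - o')) i ∈ cl0 {θ} := by
      intro i
      have h1 := hE i
      rw [ha, zero_smul, zero_add] at h1
      rw [mul_smul]
      exact h1
    have hk : qb Q ((c * b) • (o - o')) (o + o') = 0 := by
      rw [qb_smul_left, qb_comm W.symm, hqb, smul_zero]
    obtain ⟨X, hX0, hXE, hXk⟩ := exists_ker hY hx0 hk
    have hstY : st (qq Q ((c * b) • (o - o'))) = 0 := by
      rw [ha, zero_smul, zero_add] at h0
      rw [mul_smul, qq_smul, st_smul, h0, mul_zero]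
    rcases W.rk _ X (o + o') hstY (smul_ne_zero hcb hy0) hXk hk hX0 with ⟨d, hd⟩ |
      ⟨t, x₀, l, -, h5, h6, h7⟩
    swap
    · exact no_complex W.symm hx h.gen (h.two_qb W).1 hy0 hcb h5 h6 h7
    have hd0 : d ≠ 0 := by
      rintro rfl
      exact hx0 (by rw [hd, zero_smul])
    refine h.core W hx hd0 (inv_ne_zero hcb) hXE hY hd ?_
    rw [smul_smul, inv_mul_cancel₀ hcb, one_smul]
  by_cases hb : b = 0
  · have hca : c * a ≠ 0 := mul_ne_zero hc ha
    have hX : ∀ i, ((c * a) • (o + o')) i ∈ cl0 {θ} := by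
      intro i
      have h1 := hE i
      rw [hb, zero_smul, add_zero] at h1
      rw [mul_smul]
      exact h1
    have hk : qb Q ((c * a) • (o + o')) (o - o') = 0 := by
      rw [qb_smul_left, hqb, smul_zero]
    obtain ⟨Y, hY0, hYE, hYk⟩ := exists_ker hX hy0 hk
    have hstX : st (qq Q ((c * a) • (o + o'))) = 0 := by
      rw [hb, zero_smul, add_zero] at h0
      rw [mul_smul, qq_smul, st_smul, h0, mul_zero]
    rcases W.rk _ Y (o - o') hstX (smul_ne_zero hca hx0) hYk hk hY0 with ⟨d, hd⟩ |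
      ⟨t, x₀, l, -, h5, h6, h7⟩
    swap
    · exact no_complex W.symm hx h.gen (h.two_qb W).2 hx0 hca h5 h6 h7
    have hd0 : d ≠ 0 := by
      rintro rfl
      exact hy0 (by rw [hd, zero_smul])
    refine h.core W hx (inv_ne_zero hca) hd0 hX hYE ?_ hd
    rw [smul_smul, inv_mul_cancel₀ hca, one_smul]
  -- both coefficients are not zero
  have hqq : ∀ e : N, qq Q (c • (a • (o + o') + (e * b) • (o - o'))) =
      (c ^ 2) • (a ^ 2 • qq Q (o + o') + (e * b) ^ 2 • qq Q (o - o')) := by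
    intro e
    rw [qq_smul, qq_add W.symm, qq_smul, qq_smul, qb_smul_left, qb_smul_right, hqb]
    congr 1
    module
  have hE' : ∀ i, (c • (a • (o + o') + ((-1) * b) • (o - o'))) i ∈ cl0 {θ} := by
    refine W.int _ (closed_cl0 _) _ fun i => ?_
    have h1 : qq Q (c • (a • (o + o') + ((-1) * b) • (o - o'))) =
        qq Q (c • (a • (o + o') + (1 * b) • (o - o'))) := by
      rw [hqq, hqq]
      congr 3
      ring
    rw [h1, one_mul, qq_apply]
    exact sum_mem fun k _ => sum_mem fun l _ =>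
      mul_mem ((cl0 {θ}).algebraMap_mem _) (mul_mem (hE k) (hE l))
  have h2E : ∀ z ∈ cl0 ({θ} : Set N), (2 : N)⁻¹ * z ∈ cl0 ({θ} : Set N) := by
    intro z hz
    refine mul_mem (inv_mem ?_) hz
    exact ofNat_mem _ 2
  refine h.core W hx (a := (c * a)⁻¹) (b := (c * b)⁻¹) (θ := θ)
    (X := (c * a) • (o + o')) (Y := (c * b) • (o - o'))
    (inv_ne_zero (mul_ne_zero hc ha)) (inv_ne_zero (mul_ne_zero hc hb)) ?_ ?_ ?_ ?_
  · intro i
    have h1 := h2E _ (add_mem (hE i) (hE' i))
    have h2 : (2 : N)⁻¹ * (c * (a • (o + o') + b • (o - o')) i +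
        (c • (a • (o + o') + ((-1) * b) • (o - o'))) i) = ((c * a) • (o + o')) i := by
      simp only [Pi.add_apply, Pi.smul_apply, Pi.sub_apply, smul_eq_mul]
      field_simp
      ring
    rwa [h2] at h1
  · intro i
    have h1 := h2E _ (sub_mem (hE i) (hE' i))
    have h2 : (2 : N)⁻¹ * (c * (a • (o + o') + b • (o - o')) i -
        (c • (a • (o + o') + ((-1) * b) • (o - o'))) i) = ((c * b) • (o - o')) i := by
      simp only [Pi.add_apply, Pi.smul_apply, Pi.sub_apply, smul_eq_mul]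
      field_simp
      ring
    rwa [h2] at h1
  · rw [smul_smul, inv_mul_cancel₀ (mul_ne_zero hc ha), one_smul]
  · rw [smul_smul, inv_mul_cancel₀ (mul_ne_zero hc hb), one_smul]

end pair

end Vale.Agent.P297.H212.Camp
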