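import Vale.Agent.P297.H212.Camp.Gcase
import Vale.Agent.P297.H777.CLine
import Vale.Agent.P297.H777.WebN


/-!
The linking relation: the sum of two points of the octic over the same point of the Steiner surface.
-/

set_option linter.unusedSectionVars false
set_option linter.style.haveILetI false

open IntermediateField Polynomial

namespace Vale.Agent.P297.H212.Camp

open Vale.Agent.P297 Vale.Agent.P297.Gen Vale.Agent.P297.Z3 Vale.Agent.P297.C8
open Vale.Agent.P297.H72 Vale.Agent.P297.H777 Vale.Agent.P297.H637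

section scale

variable {K N : Type} [Field K] [Algebra ℂ K] [Field N] [Algebra ℂ N] {Q : Web}
  {x : Fin 4 → K}

theorem qm_scale (m : Fin 3 → N) (z r : Fin 4 → N) (c : N) :
    qm Q m z (c • r) = (qm Q m z r).comp (C c * X) := by
  have := infinite_of N
  apply Polynomial.funext
  intro t
  rw [eval_qm, eval_comp, eval_mul, eval_C, eval_X, eval_qm, smul_smul, mul_comm t c]

theorem qm_smul (m : Fin 3 → N) (z r : Fin 4 → N) (c : N) :
    qm Q (c • m) z r = C c * qm Q m z r := by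
  have := infinite_of N
  apply Polynomial.funext
  intro t
  rw [eval_qm, eval_mul, eval_C, eval_qm, cm_smul_left]

theorem RS_scale [IsAlgClosed N] (z r : Fin 4 → N) {F : N[X]} (hF : F ≠ 0) {c : N} (hc : c ≠ 0) :
    RS x z (c • r) (F.comp (C c * X)) = RS x z r F := by
  obtain ⟨t, ht⟩ := exists_factor (d := F.natDegree) le_rfl (by
    rw [coeff_natDegree]
    exact leadingCoeff_ne_zero.2 hF)
  have ha : F.coeff F.natDegree ≠ 0 := by
    rw [coeff_natDegree]
    exact leadingCoeff_ne_zero.2 hF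
  have h1 : F.comp (C c * X) = C (F.coeff F.natDegree * c ^ F.natDegree) *
      ∏ i, (X - C (t i / c)) := by
    conv_lhs => rw [ht]
    rw [mul_comp, C_comp, prod_comp]
    have h2 : ∀ i, (X - C (t i)).comp (C c * X) = C c * (X - C (t i / c)) := by
      intro i
      rw [sub_comp, X_comp, C_comp, mul_sub, ← C_mul, mul_div_cancel₀ _ hc]
    rw [Finset.prod_congr rfl fun i _ => h2 i, Finset.prod_mul_distrib, Finset.prod_const,
      Finset.card_univ, Fintype.card_fin, C_mul, C_pow]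
    ring
  rw [RS_factor z (c • r) (mul_ne_zero ha (pow_ne_zero _ hc)) h1, RS_factor z r ha ht]
  refine Finset.sum_congr rfl fun i _ => ?_
  rw [smul_smul, div_mul_cancel₀ _ hc]

end scale

section idx

theorem exists_idx {j k : Fin 4} (j0 : j ≠ 0) (k0 : k ≠ 0) (jk : j ≠ k) : ∃ l, Idx j k l := by
  fin_cases j
  · exact absurd rfl j0
  · fin_cases k
    · exact absurd rfl k0
    · exact absurd rfl jk
    · exact ⟨3, by decide, by decide, by decide, by decide, by decide, by decide, by decide⟩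
    · exact ⟨2, by decide, by decide, by decide, by decide, by decide, by decide, by decide⟩
  · fin_cases k
    · exact absurd rfl k0
    · exact ⟨3, by decide, by decide, by decide, by decide, by decide, by decide, by decide⟩
    · exact absurd rfl jk
    · exact ⟨1, by decide, by decide, by decide, by decide, by decide, by decide, by decide⟩
  · fin_cases k
    · exact absurd rfl k0
    · exact ⟨2, by decide, by decide, by decide, by decide, by decide, by decide, by decide⟩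
    · exact ⟨1, by decide, by decide, by decide, by decide, by decide, by decide, by decide⟩
    · exact absurd rfl jk

end idx

section line

variable {K K' N : Type} [Field K] [Algebra ℂ K] [Field K'] [Algebra ℂ K'] [Field N]
  [Algebra ℂ N] [IsAlgClosed N] {Q : Web} {x : Fin 4 → K} {κ : K' →ₐ[ℂ] K} {m n : ℤ}
  {o o' : Fin 4 → N}

/-- the direction at infinity of the line -/
def dir (o o' : Fin 4 → N) : Fin 4 → N := (o' 0) • o - (o 0) • o'

/-- the affine point -/
noncomputable def aff (o : Fin 4 → N) : Fin 4 → N := (o 0)⁻¹ • o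

theorem comb_eq (a b : N) (o o' : Fin 4 → N) :
    a • o + b • o' = ((a + b) / 2) • (o + o') + ((a - b) / 2) • (o - o') := by
  have h2 := char_two N
  have h1 : a = (a + b) / 2 + (a - b) / 2 := by field_simp; ring
  have h3 : b = (a + b) / 2 - (a - b) / 2 := by field_simp; ring
  conv_lhs => rw [h1, h3]
  have h4 : (a + b) / 2 + (a - b) / 2 + ((a + b) / 2 - (a - b) / 2) = (a + b) / 2 * 2 := by ring
  module

/-- points of the line in terms of `o`, `o'` -/
theorem Pair.gen_comb (W : WebN Q N) (hx : C8.IsFF Q x) (h : Pair Q o o') {a b : N}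
    (hab : a ≠ 0 ∨ b ≠ 0) (h0 : st (qq Q (a • o + b • o')) = 0) :
    GenW Q (a • o + b • o') := by
  have h2 := char_two N
  rw [comb_eq] at h0 ⊢
  refine h.gen_pt W hx ?_ h0
  by_contra hcon
  push Not at hcon
  obtain ⟨h3, h4⟩ := hcon
  have h5 : a + b = 0 := (div_eq_zero_iff.1 h3).resolve_right h2
  have h6 : a - b = 0 := (div_eq_zero_iff.1 h4).resolve_right h2
  have h7 : 2 * a = 0 := by linear_combination h5 + h6
  have h8 : a = 0 := (mul_eq_zero.1 h7).resolve_left h2
  rcases hab with h9 | h9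
  · exact h9 h8
  · apply h9
    linear_combination h5 - h8

theorem Pair.gen' (W : WebN Q N) (hx : C8.IsFF Q x) (h : Pair Q o o') : GenW Q o' := by
  have h1 := h.gen_comb W hx (a := 0) (b := 1) (Or.inr one_ne_zero) (by
    rw [zero_smul, zero_add, one_smul, h.eq]
    exact h.gen.zero)
  rwa [zero_smul, zero_add, one_smul] at h1

theorem dir_zero (o o' : Fin 4 → N) : dir o o' 0 = 0 := by
  simp only [dir, Pi.sub_apply, Pi.smul_apply, smul_eq_mul]
  ring

theorem aff_zero (h : o 0 ≠ 0) : aff o 0 = 1 := by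
  simp only [aff, Pi.smul_apply, smul_eq_mul]
  exact inv_mul_cancel₀ h

theorem line_eq (o o' : Fin 4 → N) (t : N) :
    aff o + t • dir o o' = ((o 0)⁻¹ + t * o' 0) • o + (-(t * o 0)) • o' := by
  unfold aff dir
  module

theorem Pair.dir_ne (hx : C8.IsFF Q x) (h : Pair Q o o') : dir o o' ≠ 0 := by
  intro h0
  have h1 : dir o o' = ((o' 0 - o 0) / 2) • (o + o') + ((o' 0 + o 0) / 2) • (o - o') := by
    have h2 := comb_eq (o' 0) (-(o 0)) o o'
    rw [neg_smul, ← sub_eq_add_neg, sub_neg_eq_add, ← sub_eq_add_neg] at h2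
    exact h2
  rw [h1] at h0
  obtain ⟨h2, h3⟩ := h.indep hx h0
  have h4 := char_two N
  have h5 : o' 0 - o 0 = 0 := (div_eq_zero_iff.1 h2).resolve_right h4
  have h6 : o' 0 + o 0 = 0 := (div_eq_zero_iff.1 h3).resolve_right h4
  have h7 : 2 * o 0 = 0 := by linear_combination h6 - h5
  exact h.gen.ne ((mul_eq_zero.1 h7).resolve_left h4)

theorem Pair.st_dir (W : WebN Q N) (hx : C8.IsFF Q x) (h : Pair Q o o') :
    st (qq Q (dir o o')) ≠ 0 := by
  intro h0
  have h1 : dir o o' = (o' 0) • o + (-(o 0)) • o' := by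
    unfold dir
    module
  rw [h1] at h0
  have h2 := h.gen_comb W hx (Or.inr (neg_ne_zero.2 h.gen.ne)) h0
  rw [← h1] at h2
  exact h2.ne (dir_zero o o')

theorem Pair.gen_line (W : WebN Q N) (hx : C8.IsFF Q x) (h : Pair Q o o') (t : N)
    (h0 : st (qq Q (aff o + t • dir o o')) = 0) : GenW Q (aff o + t • dir o o') := by
  rw [line_eq] at h0 ⊢
  refine h.gen_comb W hx ?_ h0
  by_cases ht : t = 0
  · left
    rw [ht, zero_mul, add_zero]
    exact inv_ne_zero h.gen.ne
  · right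
    exact neg_ne_zero.2 (mul_ne_zero ht h.gen.ne)

end line

section rank

variable {N : Type} [Field N] [Algebra ℂ N] {Q : Web} {o : Fin 4 → N}

/-- The quadric of the line `m` has rank at least three. -/
def R3 (Q : Web) (m : Fin 3 → N) : Prop := ∀ l l' : Fin 4 → N,
  (∀ a b, ∑ i, lm m i * algebraMap ℂ N (Q i a b) = l a * l' b + l' a * l b) → False

/-- A line through a generic point is not complex. -/
theorem not_complex (hQ : ∀ i, (Q i).IsSymm) (hfin : ∀ o : Fin 4 → ℂ, qq Q o = 0 → o = 0)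
    (hirr : Irreducible (octic Q)) (ho : GenW Q o) {m : Fin 3 → N} (hm : ∀ i, m i ≠ 0)
    (hv : cm m (qq Q o) = 0) (c : N) (m₀ : Fin 3 → ℂ) : m ≠ fun i => c * algebraMap ℂ N (m₀ i) := by
  intro h
  have hi := ho.indep_vy hQ hfin hirr
  have hne := ho.vy_ne hQ hfin hirr
  rw [cm_eq, Fin.sum_univ_three] at hv
  obtain ⟨v, hv'⟩ : ∃ v, v = vy (qq Q o) := ⟨_, rfl⟩
  rw [← hv'] at hv hi hne
  have hc : c ≠ 0 := by
    rintro rfl
    apply hm 0
    rw [h]
    ring
  have h2 : v 2 ≠ 0 := hne 2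
  let p : MvPolynomial (Fin 2) ℂ := MvPolynomial.C (m₀ 0) * MvPolynomial.X 0 +
    MvPolynomial.C (m₀ 1) * MvPolynomial.X 1 + MvPolynomial.C (m₀ 2)
  have hp : MvPolynomial.aeval ![v 0 / v 2, v 1 / v 2] p = 0 := by
    simp only [p, map_add, map_mul, MvPolynomial.aeval_X, MvPolynomial.aeval_C,
      Matrix.cons_val_zero, Matrix.cons_val_one]
    rw [h] at hv
    simp only at hv
    have h3 : c * (algebraMap ℂ N (m₀ 0) * v 0 + algebraMap ℂ N (m₀ 1) * v 1 +
        algebraMap ℂ N (m₀ 2) * v 2) = 0 := by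
      linear_combination hv
    have h4 := (mul_eq_zero.1 h3).resolve_left hc
    field_simp
    linear_combination h4
  have hp0 : p = 0 := by
    rw [algebraicIndependent_iff] at hi
    exact hi p hp
  have h5 := congrArg (MvPolynomial.eval (0 : Fin 2 → ℂ)) hp0
  simp only [p, map_add, map_mul, MvPolynomial.eval_X, MvPolynomial.eval_C, map_zero,
    Pi.zero_apply, mul_zero, zero_add] at h5
  apply hm 2
  rw [h]
  simp only [h5, map_zero, mul_zero]

theorem m_eq {m : Fin 3 → N} (hm : ∀ i, m i ≠ 0) :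
    m = (m 2) • mv (m 1 / m 2) (m 2 / m 0) := by
  have h0 := hm 0
  have h1 := hm 1
  have h2 := hm 2
  funext i
  fin_cases i
  · simp only [Fin.zero_eta, mv, Pi.smul_apply, smul_eq_mul, Matrix.cons_val]
    field_simp
  · simp only [Fin.mk_one, mv, Pi.smul_apply, smul_eq_mul, Matrix.cons_val]
    field_simp
  · simp only [Fin.reduceFinMk, mv, Pi.smul_apply, smul_eq_mul, Matrix.cons_val]
    ring

theorem lm_eq {m : Fin 3 → N} (hm : ∀ i, m i ≠ 0) : ∃ c : N, c ≠ 0 ∧
    lm m = c • lam (m 1 / m 2) (m 2 / m 0) := by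
  have h2 := char_two N
  refine ⟨(m 2) ^ 3 * (2 * (m 1 / m 2) * (m 2 / m 0)⁻¹), ?_, ?_⟩
  · exact mul_ne_zero (pow_ne_zero 3 (hm 2)) (mul_ne_zero (mul_ne_zero h2
      (div_ne_zero (hm 1) (hm 2))) (inv_ne_zero (div_ne_zero (hm 2) (hm 0))))
  · conv_lhs => rw [m_eq hm]
    rw [lm_smul, lm_mv (div_ne_zero (hm 1) (hm 2)) (div_ne_zero (hm 2) (hm 0)), smul_smul]

theorem MB_of_dt {m : Fin 3 → N} (hm : ∀ i, m i ≠ 0) {y : Fin 4 → N} (h : dt (lm m) y = 0) :
    ∑ i, lam (m 1 / m 2) (m 2 / m 0) i * y i = 0 := by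
  obtain ⟨c, hc, h1⟩ := lm_eq hm
  rw [h1, dt_smul_left, dt_eq] at h
  exact (mul_eq_zero.1 h).resolve_left hc

theorem MB_single (a b : N) (i j : Fin 4) :
    MB Q a b (Pi.single i 1) (Pi.single j 1) = ∑ k, lam a b k * algebraMap ℂ N (Q k i j) := by
  unfold MB
  refine Finset.sum_congr rfl fun k _ => ?_
  congr 1
  rw [qb_apply, Finset.sum_eq_single i, Finset.sum_eq_single j]
  · rw [Pi.single_eq_same, Pi.single_eq_same, mul_one, mul_one]
  · intro b _ hb
    rw [Pi.single_eq_of_ne hb, mul_zero, mul_zero]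
  · intro h
    exact absurd (Finset.mem_univ _) h
  · intro b _ hb
    refine Finset.sum_eq_zero fun c _ => ?_
    rw [Pi.single_eq_of_ne hb, zero_mul, mul_zero]
  · intro h
    exact absurd (Finset.mem_univ _) h

/-- The quadric is not degenerate along the tangent plane. -/
theorem exists_nd (hQ : ∀ i, (Q i).IsSymm) {m : Fin 3 → N} (hm : ∀ i, m i ≠ 0) (h3 : R3 Q m)
    {z : Fin 4 → N} (z0 : z 0 = 1) (zz : MB Q (m 1 / m 2) (m 2 / m 0) z z = 0) {j : Fin 4}
    (hj : MB Q (m 1 / m 2) (m 2 / m 0) z (Pi.single j 1) ≠ 0) :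
    ∃ v : Fin 4 → N, v 0 = 0 ∧ MB Q (m 1 / m 2) (m 2 / m 0) z v = 0 ∧
      MB Q (m 1 / m 2) (m 2 / m 0) v v ≠ 0 := by
  have h2 := char_two N
  obtain ⟨c, hc, hlm⟩ := lm_eq hm
  generalize m 1 / m 2 = a at *
  generalize m 2 / m 0 = b at *
  by_contra hcon
  push Not at hcon
  have hT : ∀ v : Fin 4 → N, MB Q a b z v = 0 → MB Q a b v v = 0 := by
    intro v hv
    have h4 := hcon (v + (-(v 0)) • z) (by
      simp only [Pi.add_apply, Pi.smul_apply, smul_eq_mul, z0]
      ring) (by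
      rw [MB_add_right, MB_smul_right, hv, zz]
      ring)
    rw [MB_line hQ, MB_comm hQ a b v z, hv, zz] at h4
    linear_combination h4
  have hTT : ∀ u v : Fin 4 → N, MB Q a b z u = 0 → MB Q a b z v = 0 → MB Q a b u v = 0 := by
    intro u v hu hv
    have h4 := hT (u + (1 : N) • v) (by rw [MB_add_right, MB_smul_right, hu, hv]; ring)
    rw [MB_line hQ, hT u hu, hT v hv] at h4
    have h5 : 2 * MB Q a b u v = 0 := by linear_combination h4
    exact (mul_eq_zero.1 h5).resolve_left h2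
  obtain ⟨e, he⟩ : ∃ e : Fin 4 → N, e = (MB Q a b z (Pi.single j 1))⁻¹ • Pi.single j 1 := ⟨_, rfl⟩
  have hze : MB Q a b z e = 1 := by
    rw [he, MB_smul_right, inv_mul_cancel₀ hj]
  have hB : ∀ u v : Fin 4 → N, MB Q a b u v = MB Q a b z u *
      (MB Q a b e v - MB Q a b z v * MB Q a b e e / 2) + (MB Q a b e u - MB Q a b z u *
        MB Q a b e e / 2) * MB Q a b z v := by
    intro u v
    have h4 := hTT (u + (-(MB Q a b z u)) • e) (v + (-(MB Q a b z v)) • e)
      (by rw [MB_add_right, MB_smul_right, hze]; ring)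
      (by rw [MB_add_right, MB_smul_right, hze]; ring)
    rw [MB_add_left, MB_add_right, MB_add_right, MB_smul_left, MB_smul_left, MB_smul_right,
      MB_smul_right, MB_comm hQ a b u e] at h4
    field_simp
    linear_combination 2 * h4
  refine h3 (fun i => c * MB Q a b z (Pi.single i 1)) (fun i => MB Q a b e (Pi.single i 1) -
    MB Q a b z (Pi.single i 1) * MB Q a b e e / 2) fun i k => ?_
  have h4 : ∑ s, lm m s * algebraMap ℂ N (Q s i k) =
      c * MB Q a b (Pi.single i 1) (Pi.single k 1) := by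
    rw [MB_single, hlm, Finset.mul_sum]
    exact Finset.sum_congr rfl fun s _ => by
      rw [Pi.smul_apply, smul_eq_mul, mul_assoc]
  rw [h4, hB]
  ring

/-- A point with nonsingular Jacobian is not a vertex. -/
theorem exists_ze (hQ : ∀ i, (Q i).IsSymm) {a b : N} {z : Fin 4 → N} (z0 : z 0 = 1)
    (zz : MB Q a b z z = 0) (hjac : (jac Q z).det ≠ 0) :
    ∃ j : Fin 4, j ≠ 0 ∧ MB Q a b z (Pi.single j 1) ≠ 0 := by
  by_contra hcon
  push Not at hcon
  have h0 : MB Q a b z (Pi.single 0 1) = 0 := by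
    have h1 : z = z 0 • Pi.single 0 1 + z 1 • Pi.single 1 1 + z 2 • Pi.single 2 1 +
        z 3 • Pi.single 3 1 := by
      funext i
      fin_cases i <;> simp
    have h2 := zz
    nth_rewrite 2 [h1] at h2
    rw [MB_add_right, MB_add_right, MB_add_right, MB_smul_right, MB_smul_right, MB_smul_right,
      MB_smul_right, hcon 1 (by decide), hcon 2 (by decide), hcon 3 (by decide), z0] at h2
    linear_combination h2
  have hall : ∀ j, MB Q a b z (Pi.single j 1) = 0 := by
    intro j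
    by_cases hj : j = 0
    · rw [hj, h0]
    · exact hcon j hj
  have h3 : Matrix.vecMul (lam a b) (jac Q z) = 0 := by
    funext j
    have h4 := hall j
    unfold MB at h4
    rw [Pi.zero_apply, ← h4]
    unfold Matrix.vecMul dotProduct
    refine Finset.sum_congr rfl fun i _ => ?_
    congr 1
    have h5 := congrFun (jac_mulVec Q z (Pi.single j 1)) i
    rw [qb_comm hQ z, ← h5, Matrix.mulVec_single_one]
    rfl
  have h4 := Matrix.eq_zero_of_vecMul_eq_zero hjac h3
  have h5 := congrFun h4 0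
  simp only [lam, Matrix.cons_val_zero, Pi.zero_apply] at h5
  exact one_ne_zero h5

end rank

section psi

variable {K K' N : Type} [Field K] [Algebra ℂ K] [Field K'] [Algebra ℂ K'] [Field N]
  [Algebra ℂ N] [IsAlgClosed N] {Q : Web} {x : Fin 4 → K} {κ : K' →ₐ[ℂ] K} {mm n : ℤ}
  {o o' : Fin 4 → N}

theorem Pair.iso_comb (W : WebN Q N) (h : Pair Q o o') {m : Fin 3 → N} (hL : Lk Q o o' m)
    (a b c d : N) : MB Q (m 1 / m 2) (m 2 / m 0) (a • (o + o') + b • (o - o'))
      (c • (o + o') + d • (o - o')) = 0 := by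
  have h1 : MB Q (m 1 / m 2) (m 2 / m 0) (o + o') (o + o') = 0 := MB_of_dt hL.ne hL.dx
  have h2 : MB Q (m 1 / m 2) (m 2 / m 0) (o - o') (o - o') = 0 := MB_of_dt hL.ne hL.dy
  have h3 : MB Q (m 1 / m 2) (m 2 / m 0) (o + o') (o - o') = 0 := by
    unfold MB
    rw [h.xy W]
    simp only [Pi.zero_apply, mul_zero, Finset.sum_const_zero]
  rw [MB_add_left, MB_add_right, MB_add_right, MB_smul_left, MB_smul_left, MB_smul_left,
    MB_smul_left, MB_smul_right, MB_smul_right, MB_smul_right, MB_smul_right,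
    MB_comm W.symm _ _ (o - o') (o + o'), h1, h2, h3]
  ring

theorem aff_eq (o o' : Fin 4 → N) : aff o = ((o 0)⁻¹ / 2) • (o + o') + ((o 0)⁻¹ / 2) • (o - o') := by
  have h := comb_eq (o 0)⁻¹ 0 o o'
  rw [zero_smul, add_zero, add_zero, sub_zero] at h
  exact h

theorem dir_eq (o o' : Fin 4 → N) : dir o o' =
    ((o' 0 - o 0) / 2) • (o + o') + ((o' 0 + o 0) / 2) • (o - o') := by
  have h2 := comb_eq (o' 0) (-(o 0)) o o'
  rw [neg_smul, ← sub_eq_add_neg, sub_neg_eq_add, ← sub_eq_add_neg] at h2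
  exact h2

/-- **The relation for the three lines.** -/
theorem Pair.psi (hx : C8.IsFF Q x) (hfin : ∀ o : Fin 4 → ℂ, qq Q o = 0 → o = 0)
    (hirr : Irreducible (octic Q))
    (hdet : ∀ (N : Type) [Field N] [Algebra ℂ N] (a b : N), AlgebraicIndependent ℂ ![a, b] →
      (MM Q a b).det ≠ 0) (hD : DHyp Q x κ mm n) (W : WebN Q N) (h : Pair Q o o')
    {m : Fin 3 → N} (hL : Lk Q o o' m) (h3 : R3 Q m) :
    n • RS x (aff o) (dir o o') (qm Q m (aff o) (dir o o')) ∈ RH κ mm N := by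
  have hQ := W.symm
  obtain ⟨z, hz⟩ : ∃ z, z = aff o := ⟨_, rfl⟩
  obtain ⟨r, hr⟩ : ∃ r, r = dir o o' := ⟨_, rfl⟩
  obtain ⟨a, ha⟩ : ∃ a, a = m 1 / m 2 := ⟨_, rfl⟩
  obtain ⟨b, hb⟩ : ∃ b, b = m 2 / m 0 := ⟨_, rfl⟩
  have a0 : a ≠ 0 := by rw [ha]; exact div_ne_zero (hL.ne 1) (hL.ne 2)
  have b0 : b ≠ 0 := by rw [hb]; exact div_ne_zero (hL.ne 2) (hL.ne 0)
  have z0 : z 0 = 1 := by rw [hz]; exact aff_zero h.gen.ne
  have r0 : r 0 = 0 := by rw [hr]; exact dir_zero _ _
  have rne : r ≠ 0 := by rw [hr]; exact h.dir_ne hx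
  have zz : MB Q a b z z = 0 := by
    rw [ha, hb, hz, aff_eq o o']
    exact h.iso_comb W hL _ _ _ _
  have zr : MB Q a b z r = 0 := by
    rw [ha, hb, hz, hr, aff_eq o o', dir_eq]
    exact h.iso_comb W hL _ _ _ _
  have rr : MB Q a b r r = 0 := by
    rw [ha, hb, hr, dir_eq]
    exact h.iso_comb W hL _ _ _ _
  have hline : ∀ t : N, MB Q a b (z + t • r) (z + t • r) = 0 := by
    intro t
    rw [MB_line hQ, zz, zr, rr]
    ring
  have hzg : GenW Q z := by
    rw [hz]
    exact h.gen.smul (inv_ne_zero h.gen.ne)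
  obtain ⟨j, j0, hj⟩ := exists_ze hQ z0 zz (hzg.jac_ne hQ hfin hirr)
  obtain ⟨k, k0, jk, hk⟩ : ∃ k : Fin 4, k ≠ 0 ∧ j ≠ k ∧ r k ≠ 0 := by
    by_contra hcon
    push Not at hcon
    have h1 : r = r j • Pi.single j 1 := by
      funext i
      rw [Pi.smul_apply, smul_eq_mul, Pi.single_apply]
      split_ifs with hi
      · rw [hi, mul_one]
      · rw [mul_zero]
        by_cases hi0 : i = 0
        · rw [hi0, r0]
        · exact hcon i hi0 (fun h2 => hi h2.symm)
    have h2 := zr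
    rw [h1, MB_smul_right] at h2
    apply rne
    rw [h1, (mul_eq_zero.1 h2).resolve_right hj, zero_smul]
  obtain ⟨l, hI⟩ := exists_idx j0 k0 jk
  obtain ⟨c, hc⟩ : ∃ c, c = (r k)⁻¹ := ⟨_, rfl⟩
  have c0 : c ≠ 0 := by rw [hc]; exact inv_ne_zero hk
  have hlc : cm (mv a b) (qq Q r) ≠ 0 := by
    intro h1
    have h2 := st_of_cm a0 b0 h1 rr
    rw [hr] at h2
    exact h.st_dir W hx h2
  have hcf : Cf Q j k l ![a, b, z k, z l] z (c • r) := by
    refine ⟨a0, b0, z0, rfl, rfl, ?_, ?_, zz, ?_, ?_, hj, ?_, ?_, ?_⟩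
    · rw [Pi.smul_apply, r0, smul_zero]
    · rw [Pi.smul_apply, smul_eq_mul, hc, inv_mul_cancel₀ hk]
    · change MB Q a b z (c • r) = 0
      rw [MB_smul_right, zr, mul_zero]
    · change MB Q a b (c • r) (c • r) = 0
      rw [MB_smul_right, MB_smul_left, rr, mul_zero, mul_zero]
    · have h1 := exists_nd hQ hL.ne h3 z0 (by rw [← ha, ← hb]; exact zz) (j := j)
        (by rw [← ha, ← hb]; exact hj)
      rw [← ha, ← hb] at h1
      exact h1
    · change cm (mv a b) (qq Q (c • r)) ≠ 0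
      rw [C8.qq_smul, cm_smul]
      exact mul_ne_zero (pow_ne_zero 2 (pow_ne_zero 2 c0)) hlc
    · intro t ht
      have ht' : cm (mv a b) (qq Q (z + t • c • r)) = 0 := ht
      rw [smul_smul] at ht' ⊢
      have h1 := st_of_cm a0 b0 ht' (hline _)
      rw [hz, hr] at h1 ⊢
      exact h.gen_line W hx _ h1
  have hrel := hcf.rel hx hQ hfin hirr hdet hD hI
  have h1 : qc Q ![a, b, z k, z l] z (c • r) = (qm Q (mv a b) z r).comp (C c * X) :=
    qm_scale _ _ _ _
  have h2 : qm Q (mv a b) z r ≠ 0 := by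
    intro h3
    have h4 := coeff_qm Q (mv a b) z r
    rw [h3, coeff_zero] at h4
    exact hlc h4.symm
  rw [h1, RS_scale z r h2 c0] at hrel
  have h3 : qm Q m z r = C (m 2) * qm Q (mv a b) z r := by
    rw [← qm_smul, ha, hb, ← m_eq hL.ne]
  rw [← hz, ← hr, h3, RS_C_mul _ _ _ (hL.ne 2)]
  exact hrel

/-- The product of the three quartics. -/
theorem Pair.prod (W : WebN Q N) (h : Pair Q o o') {m : Fin 3 → Fin 3 → N} {c : N}
    (hc : pq (m 0) (qq Q (o + o')) (qq Q (o - o')) * pq (m 1) (qq Q (o + o')) (qq Q (o - o')) *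
        pq (m 2) (qq Q (o + o')) (qq Q (o - o')) =
      C c * (X - 1) ^ 2 * (X + 1) ^ 2 * st (pY (qq Q (o + o')) (qq Q (o - o')))) (hne : o 0 ≠ 0) :
    qm Q (m 0) (aff o) (dir o o') * qm Q (m 1) (aff o) (dir o o') *
      qm Q (m 2) (aff o) (dir o o') =
      C c * ((C (o 0)⁻¹ + X * C (o' 0)) * (X * C (o 0))) ^ 2 * st (qL Q (aff o) (dir o o')) := by
  have h20 := char_two N
  have := infinite_of N
  have hcomb : ∀ α β : N, α + β ≠ 0 → cm (m 0) (qq Q (α • o + β • o')) *
      cm (m 1) (qq Q (α • o + β • o')) * cm (m 2) (qq Q (α • o + β • o')) =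
      c * (α * β) ^ 2 * st (qq Q (α • o + β • o')) := by
    intro α β hαβ
    obtain ⟨s, hs⟩ : ∃ s, s = (α - β) / (α + β) := ⟨_, rfl⟩
    obtain ⟨k, hk⟩ : ∃ k, k = (α + β) / 2 := ⟨_, rfl⟩
    have h1 : α • o + β • o' = k • ((o + o') + s • (o - o')) := by
      have hks : (α - β) / 2 = k * s := by
        rw [hk, hs]
        field_simp
      rw [comb_eq, ← hk, hks]
      module
    have h2 : qq Q ((o + o') + s • (o - o')) = qq Q (o + o') + s ^ 2 • qq Q (o - o') := by
      rw [qq_add W.symm, qb_smul_right, C8.qq_smul, h.xy W, smul_zero, smul_zero, add_zero]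
    have h3 := congrArg (eval s) hc
    rw [eval_mul, eval_mul, eval_pq, eval_pq, eval_pq, ← h2] at h3
    simp only [eval_mul, eval_C, eval_pow, eval_sub, eval_add, eval_X, eval_one] at h3
    rw [eval_st, ← h2] at h3
    rw [h1, C8.qq_smul, cm_smul, cm_smul, cm_smul, st_smul]
    have h4 : (α * β) ^ 2 = (k ^ 2) ^ 2 * ((s - 1) * (s + 1)) ^ 2 := by
      rw [hk, hs]
      field_simp
      ring
    rw [h4]
    linear_combination (k ^ 2) ^ 2 * (k ^ 2) ^ 2 * (k ^ 2) ^ 2 * h3
  have hδ : (C (o 0)⁻¹ + X * C (o' 0 - o 0) : N[X]) ≠ 0 := by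
    intro h1
    have h2 := congrArg (eval 0) h1
    simp only [eval_add, eval_mul, eval_C, eval_X, zero_mul, add_zero, eval_zero] at h2
    exact inv_ne_zero hne h2
  apply mul_left_cancel₀ hδ
  apply Polynomial.funext
  intro t
  by_cases ht : (o 0)⁻¹ + t * (o' 0 - o 0) = 0
  · rw [eval_mul, eval_mul]
    simp only [eval_add, eval_mul, eval_C, eval_X, ht, zero_mul]
  · rw [eval_mul, eval_mul]
    congr 1
    rw [eval_mul, eval_mul, eval_qm, eval_qm, eval_qm, line_eq]
    have h1 := hcomb ((o 0)⁻¹ + t * o' 0) (-(t * o 0)) (by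
      intro h2
      apply ht
      linear_combination h2)
    rw [h1]
    simp only [eval_mul, eval_C, eval_pow, eval_add, eval_X]
    rw [eval_st_qL, line_eq]
    ring

/-- **The linking relation.** -/
theorem Pair.link (hx : C8.IsFF Q x) (hfin : ∀ o : Fin 4 → ℂ, qq Q o = 0 → o = 0)
    (hirr : Irreducible (octic Q))
    (hdet : ∀ (N : Type) [Field N] [Algebra ℂ N] (a b : N), AlgebraicIndependent ℂ ![a, b] →
      (MM Q a b).det ≠ 0) (hD : DHyp Q x κ mm n) (W : WebN Q N)
    (h3 : ∀ m : Fin 3 → N, (∀ i, m i ≠ 0) →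
      (∀ (c : N) (m₀ : Fin 3 → ℂ), m ≠ fun i => c * algebraMap ℂ N (m₀ i)) → R3 Q m)
    (h : Pair Q o o') : (2 * n) • (C8.pt x o + C8.pt x o') ∈ RH κ mm N := by
  have hQ := W.symm
  obtain ⟨m, hm, c, hc, hprod⟩ := h.exists_lines W hx
  have hg' := h.gen' W hx
  have hpsi : ∀ i, n • RS x (aff o) (dir o o') (qm Q (m i) (aff o) (dir o o')) ∈ RH κ mm N :=
    fun i => h.psi hx hfin hirr hdet hD W (hm i) (h3 _ (hm i).ne
      (not_complex hQ hfin hirr h.gen (hm i).ne (hm i).cv))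
  have h8 := rs_octic hx κ mm (exists_cline hirr) (aff o) (dir o o') (h.st_dir W hx)
    (h.gen_line W hx)
  have hpr := h.prod W hprod h.gen.ne
  obtain ⟨τ, hτ⟩ : ∃ τ, τ = -((o 0)⁻¹ * (o' 0)⁻¹) := ⟨_, rfl⟩
  have hfac : (C (o 0)⁻¹ + X * C (o' 0)) * (X * C (o 0)) =
      (C (o' 0 * o 0) * ((X - C τ) * (X - C 0)) : N[X]) := by
    have h1 : (C (o 0)⁻¹ : N[X]) = - (C (o' 0) * C τ) := by
      rw [← C_mul, ← C_neg, hτ]
      congr 1
      have := hg'.ne
      field_simp
    rw [h1, C_mul, C_0]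
    ring
  have hst0 : st (qL Q (aff o) (dir o o')) ≠ 0 := by
    intro h0
    have h1 := coeff_st_qL Q (aff o) (dir o o')
    rw [h0, coeff_zero] at h1
    exact h.st_dir W hx h1.symm
  have hk0 : o' 0 * o 0 ≠ 0 := mul_ne_zero hg'.ne h.gen.ne
  have hL : (X - C τ) * (X - C 0) ≠ (0 : N[X]) :=
    mul_ne_zero (X_sub_C_ne_zero _) (X_sub_C_ne_zero _)
  have hLL : ((X - C τ) * (X - C 0)) * ((X - C τ) * (X - C 0)) ≠ (0 : N[X]) := mul_ne_zero hL hL
  have hpr2 : qm Q (m 0) (aff o) (dir o o') * qm Q (m 1) (aff o) (dir o o') *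
      qm Q (m 2) (aff o) (dir o o') =
      C (c * (o' 0 * o 0) ^ 2) * ((((X - C τ) * (X - C 0)) * ((X - C τ) * (X - C 0))) *
        st (qL Q (aff o) (dir o o'))) := by
    rw [hpr, hfac]
    simp only [C_mul, C_pow]
    ring
  have hR : c * (o' 0 * o 0) ^ 2 ≠ 0 := mul_ne_zero hc (pow_ne_zero 2 hk0)
  have hne3 : qm Q (m 0) (aff o) (dir o o') * qm Q (m 1) (aff o) (dir o o') *
      qm Q (m 2) (aff o) (dir o o') ≠ 0 := by
    rw [hpr2]
    exact mul_ne_zero (C_ne_zero.2 hR) (mul_ne_zero hLL hst0)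
  have hsum := congrArg (RS x (aff o) (dir o o')) hpr2
  rw [RS_mul _ _ hne3, RS_mul _ _ (left_ne_zero_of_mul hne3), RS_C_mul _ _ _ hR,
    RS_mul _ _ (mul_ne_zero hLL hst0), RS_mul _ _ hLL, RS_mul _ _ hL, RS_linear, RS_linear,
    zero_smul, add_zero] at hsum
  have e1 : C8.pt x (aff o) = C8.pt x o := pt_smul (inv_ne_zero h.gen.ne)
  have e2 : C8.pt x (aff o + τ • dir o o') = C8.pt x o' := by
    have h1 : aff o + τ • dir o o' = (o' 0)⁻¹ • o' := by
      rw [line_eq, hτ]
      have h2 : (o 0)⁻¹ + -((o 0)⁻¹ * (o' 0)⁻¹) * o' 0 = 0 := by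
        have := hg'.ne
        have := h.gen.ne
        field_simp
        ring
      have h4 : -(-((o 0)⁻¹ * (o' 0)⁻¹) * o 0) = (o' 0)⁻¹ := by
        have := hg'.ne
        have := h.gen.ne
        field_simp
      rw [h2, h4, zero_smul, zero_add]
    rw [h1, pt_smul (inv_ne_zero hg'.ne)]
  rw [e1, e2] at hsum
  have h5 : (2 * n) • (C8.pt x o + C8.pt x o') =
      n • RS x (aff o) (dir o o') (qm Q (m 0) (aff o) (dir o o')) +
      n • RS x (aff o) (dir o o') (qm Q (m 1) (aff o) (dir o o')) +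
      n • RS x (aff o) (dir o o') (qm Q (m 2) (aff o) (dir o o')) -
      n • RS x (aff o) (dir o o') (st (qL Q (aff o) (dir o o'))) := by
    rw [← smul_add, ← smul_add, hsum, ← smul_sub]
    have h6 : C8.pt x o' + C8.pt x o + (C8.pt x o' + C8.pt x o) +
        RS x (aff o) (dir o o') (st (qL Q (aff o) (dir o o'))) -
        RS x (aff o) (dir o o') (st (qL Q (aff o) (dir o o'))) =
        (2 : ℤ) • (C8.pt x o + C8.pt x o') := by
      rw [two_smul]
      abel
    rw [h6, smul_smul, mul_comm]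
  rw [h5]
  exact sub_mem (add_mem (add_mem (hpsi 0) (hpsi 1)) (hpsi 2)) (zsmul_mem h8 n)

end psi

end Vale.Agent.P297.H212.Camp
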