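import Vale.Agent.P297.H212.Camp.Final
import Vale.Agent.P297.H72.Camp8

/-!
The linking relation from conditions on the complex web.
-/

set_option linter.unusedSectionVars false
set_option linter.style.haveILetI false

open IntermediateField Polynomial

namespace Vale.Agent.P297.H212.Camp

open Vale.Agent.P297 Vale.Agent.P297.C8 Vale.Agent.P297.H72

variable {K K' N : Type} [Field K] [Algebra ℂ K] [Field K'] [Algebra ℂ K'] [Field N]
  [Algebra ℂ N] [IsAlgClosed N] {Q : Web} {x : Fin 4 → K} {κ : K' →ₐ[ℂ] K} {mm n : ℤ}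

/-- **Linking**, from the conditions over `N`. -/
theorem link_of_webN (hx : C8.IsFF Q x) (hfin : NoBase Q) (hirr : Irreducible (octic Q))
    (hdet : ∀ (N : Type) [Field N] [Algebra ℂ N] (a b : N), AlgebraicIndependent ℂ ![a, b] →
      (MM Q a b).det ≠ 0) (hD : DHyp Q x κ mm n) (W : WebN Q N)
    (h3 : ∀ m : Fin 3 → N, (∀ i, m i ≠ 0) →
      (∀ (c : N) (m₀ : Fin 3 → ℂ), m ≠ fun i => c * algebraMap ℂ N (m₀ i)) → R3 Q m)
    (o o' : Fin 4 → N) (ho : GenW Q o) (_ho' : GenW Q o') (h : qq Q o' = qq Q o)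
    (hne : o' ≠ o) (hne' : o' ≠ -o) :
    (2 * n) • resK κ (C8.pt x o + C8.pt x o') ∈ Rel mm K' N := by
  have h1 := Pair.link hx hfin hirr hdet hD W h3 (⟨ho, h, hne, hne'⟩ : Pair Q o o')
  have h2 : resK κ ((2 * n) • (C8.pt x o + C8.pt x o')) ∈ Rel mm K' N := h1
  rw [map_zsmul] at h2
  exact h2

/-- **Linking**, from conditions over the complex numbers. -/
theorem link_of (hx : C8.IsFF Q x) (hQ : ∀ i, (Q i).IsSymm) (hfin : NoBase Q)
    (hirr : Irreducible (octic Q))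
    (hdet : ∀ (N : Type) [Field N] [Algebra ℂ N] (a b : N), AlgebraicIndependent ℂ ![a, b] →
      (MM Q a b).det ≠ 0) (hD : DHyp Q x κ mm n)
    (h3 : ∀ p u v : Fin 4 → ℂ, p ≠ 0 → qb Q p u = 0 → qb Q p v = 0 → u ≠ 0 → ∃ c : ℂ, v = c • u)
    (h5 : ∀ m : Fin 3 → ℂ, (∀ i, m i ≠ 0) → ∀ l l' : Fin 4 → ℂ,
      (∀ a b, ∑ i, lm m i * Q i a b = l a * l' b + l' a * l b) → False)
    (o o' : Fin 4 → N) (ho : GenW Q o) (ho' : GenW Q o') (h : qq Q o' = qq Q o)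
    (hne : o' ≠ o) (hne' : o' ≠ -o) :
    (2 * n) • resK κ (C8.pt x o + C8.pt x o') ∈ Rel mm K' N :=
  link_of_webN hx hfin hirr hdet hD (webN_of hQ hfin hirr h3)
    (fun m hm _ => rank3_of h5 m hm) o o' ho ho' h hne hne'

/-- **Bloch's conjecture** for the quotients of the double cover of the octic. -/
theorem bloch_of (hx : C8.IsFF Q x) (hQ : ∀ i, (Q i).IsSymm) (hfin : NoBase Q)
    (hirr : Irreducible (octic Q)) (hsp : ∃ a : Fin 4 → ℂ, Three Q a)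
    (hdet : ∀ (N : Type) [Field N] [Algebra ℂ N] (a b : N), AlgebraicIndependent ℂ ![a, b] →
      (MM Q a b).det ≠ 0) (hn : n ≠ 0) (hD : DHyp Q x κ 0 n)
    (h3 : ∀ p u v : Fin 4 → ℂ, p ≠ 0 → qb Q p u = 0 → qb Q p v = 0 → u ≠ 0 → ∃ c : ℂ, v = c • u)
    (h5 : ∀ m : Fin 3 → ℂ, (∀ i, m i ≠ 0) → ∀ l l' : Fin 4 → ℂ,
      (∀ a b, ∑ i, lm m i * Q i a b = l a * l' b + l' a * l b) → False)
    (φ : K →ₐ[ℂ] N) : H839.PointsEquivalent K' :=
  camp_glue hQ hfin hirr hsp hx κ φ (mul_ne_zero two_ne_zero hn)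
    (link_of hx hQ hfin hirr hdet hD h3 h5)

end Vale.Agent.P297.H212.Camp
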