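import Vale.Agent.P297.H212.Camp.Spec
import Vale.Agent.P297.H212.Camp.Alg

/-!
The sum of the eight points of the octic on any line whose points of the octic are generic.
-/

set_option linter.unusedSectionVars false

open IntermediateField Polynomial

namespace Vale.Agent.P297.H212.Camp

open Vale.Agent.P297 Vale.Agent.P297.C8 Vale.Agent.P297.H72 Vale.Agent.P297.H777

section poly

variable {N : Type} [Field N] [Algebra ℂ N]

/-- the quadratic map along a line -/
noncomputable def qL (Q : Web) (z r : Fin 4 → N) : Fin 4 → N[X] :=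
  qq Q (fun j => C (z j) + X * C (r j))

theorem eval_qL (Q : Web) (z r : Fin 4 → N) (t : N) (i : Fin 4) :
    (qL Q z r i).eval t = qq Q (z + t • r) i := by
  have h1 := map_qq Q ((aeval t : N[X] →ₐ[N] N).restrictScalars ℂ)
    (fun j => C (z j) + X * C (r j)) i
  have h2 : (qL Q z r i).eval t = ((aeval t : N[X] →ₐ[N] N).restrictScalars ℂ)
      (qq Q (fun j => C (z j) + X * C (r j)) i) := by
    rw [AlgHom.restrictScalars_apply, coe_aeval_eq_eval]
    rfl
  rw [h2, h1]
  congr 1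
  funext j
  rw [AlgHom.restrictScalars_apply, coe_aeval_eq_eval]
  simp only [eval_add, eval_mul, eval_C, eval_X, Pi.add_apply, Pi.smul_apply, smul_eq_mul]

theorem eval_st_qL (Q : Web) (z r : Fin 4 → N) (t : N) :
    (st (qL Q z r)).eval t = st (qq Q (z + t • r)) := by
  simp only [st, eval_add, eval_sub, eval_mul, eval_pow, eval_ofNat, eval_qL]

theorem st_qL_eq (Q : Web) (z r : Fin 4 → N) : st (qL Q z r) = lineP (octic Q) z r :=
  (octic_lineP Q z r).symm

theorem natDegree_st_qL (Q : Web) (z r : Fin 4 → N) : (st (qL Q z r)).natDegree ≤ 8 := by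
  rw [st_qL_eq]
  exact natDegree_lineP_le _ _ _ (octic_homogeneous Q).totalDegree_le

theorem coeff_st_qL (Q : Web) (z r : Fin 4 → N) :
    (st (qL Q z r)).coeff 8 = st (qq Q r) := by
  rw [st_qL_eq, coeff_lineP (octic_homogeneous Q), aeval_octic]

theorem lineP_X (Q : Web) (z r : Fin 4 → N) (i : Fin 4) :
    lineP (qq Q (MvPolynomial.X : Fin 4 → MvPolynomial (Fin 4) ℂ) i) z r = qL Q z r i := by
  unfold lineP qL
  rw [map_qq]
  simp only [MvPolynomial.aeval_X]

theorem natDegree_qL (Q : Web) (z r : Fin 4 → N) (i : Fin 4) : (qL Q z r i).natDegree ≤ 2 := by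
  rw [← lineP_X]
  exact natDegree_lineP_le _ _ _ (qq_X_homogeneous Q i).totalDegree_le

theorem coeff_qL (Q : Web) (z r : Fin 4 → N) (i : Fin 4) :
    (qL Q z r i).coeff 2 = qq Q r i := by
  rw [← lineP_X, coeff_lineP (qq_X_homogeneous Q i), map_qq]
  simp only [MvPolynomial.aeval_X]

/-- the quartic of a line `m` of the plane -/
noncomputable def qm (Q : Web) (m : Fin 3 → N) (z r : Fin 4 → N) : N[X] :=
  cm (fun i => C (m i)) (qL Q z r)

theorem eval_qm (Q : Web) (m : Fin 3 → N) (z r : Fin 4 → N) (t : N) :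
    (qm Q m z r).eval t = cm m (qq Q (z + t • r)) := by
  simp only [qm, cm, eval_add, eval_mul, eval_C, eval_qL]

theorem natDegree_qm (Q : Web) (m : Fin 3 → N) (z r : Fin 4 → N) :
    (qm Q m z r).natDegree ≤ 4 := by
  have h1 : ∀ (a : N) (i j : Fin 4), (C a * (qL Q z r i * qL Q z r j)).natDegree ≤ 4 := by
    intro a i j
    refine (natDegree_C_mul_le _ _).trans ((natDegree_mul_le).trans ?_)
    have := natDegree_qL Q z r i
    have := natDegree_qL Q z r j
    omega
  unfold qm cm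
  exact natDegree_add_le_of_degree_le (natDegree_add_le_of_degree_le (h1 _ _ _) (h1 _ _ _))
    (h1 _ _ _)

theorem coeff_qm (Q : Web) (m : Fin 3 → N) (z r : Fin 4 → N) :
    (qm Q m z r).coeff 4 = cm m (qq Q r) := by
  have h1 : ∀ (i j : Fin 4), (qL Q z r i * qL Q z r j).coeff 4 = qq Q r i * qq Q r j := by
    intro i j
    have h2 := coeff_mul_add_eq_of_natDegree_le (natDegree_qL Q z r i) (natDegree_qL Q z r j)
    rw [coeff_qL, coeff_qL] at h2
    exact h2
  simp only [qm, cm, coeff_add, coeff_C_mul, h1]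

end poly

section val

variable {N N₁ : Type} [Field N] [Algebra ℂ N] [Field N₁] [Algebra ℂ N₁] [Algebra N N₁]
  [IsScalarTower ℂ N N₁] {P : Plc N N₁} {Q : Web}

theorem PVal.sum {ι : Type} (s : Finset ι) {F₁ : ι → N₁[X]} {F : ι → N[X]}
    (h : ∀ i ∈ s, PVal P (F₁ i) (F i)) : PVal P (∑ i ∈ s, F₁ i) (∑ i ∈ s, F i) := by
  classical
  induction s using Finset.induction_on with
  | empty => exact pval_zero
  | insert i s hi ih =>
    rw [Finset.sum_insert hi, Finset.sum_insert hi]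
    exact (h i (Finset.mem_insert_self _ _)).add
      (ih fun k hk => h k (Finset.mem_insert_of_mem hk))

theorem pval_qL {z₁ r₁ : Fin 4 → N₁} {z r : Fin 4 → N} (hz : ∀ j, P.Val (z₁ j) (z j))
    (hr : ∀ j, P.Val (r₁ j) (r j)) (i : Fin 4) : PVal P (qL Q z₁ r₁ i) (qL Q z r i) := by
  unfold qL
  rw [qq_apply, qq_apply]
  have h1 : ∀ j, PVal P (C (z₁ j) + X * C (r₁ j)) (C (z j) + X * C (r j)) := fun j =>
    (pval_C (hz j)).add (pval_X.mul (pval_C (hr j)))
  have h2 : ∀ c : ℂ, PVal P (algebraMap ℂ N₁[X] c) (algebraMap ℂ N[X] c) := by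
    intro c
    have h3 : algebraMap ℂ N₁[X] c = C (algebraMap ℂ N₁ c) := rfl
    have h4 : algebraMap ℂ N[X] c = C (algebraMap ℂ N c) := rfl
    rw [h3, h4, IsScalarTower.algebraMap_apply ℂ N N₁]
    exact pval_C (P.val_const _)
  exact PVal.sum _ fun a _ => PVal.sum _ fun b _ => (h2 _).mul ((h1 a).mul (h1 b))

theorem pval_st {y₁ : Fin 4 → N₁[X]} {y : Fin 4 → N[X]} (h : ∀ i, PVal P (y₁ i) (y i)) :
    PVal P (st y₁) (st y) := by
  unfold st
  exact ((((h 2).pow 2).mul ((h 3).pow 2)).add (((h 1).pow 2).mul ((h 3).pow 2))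
    |>.add (((h 1).pow 2).mul ((h 2).pow 2))).sub
      (pval_two.mul ((((h 0).mul (h 1)).mul (h 2)).mul (h 3)))

theorem pval_qm {m₁ : Fin 3 → N₁} {m : Fin 3 → N} {z₁ r₁ : Fin 4 → N₁} {z r : Fin 4 → N}
    (hm : ∀ j, P.Val (m₁ j) (m j)) (hz : ∀ j, P.Val (z₁ j) (z j))
    (hr : ∀ j, P.Val (r₁ j) (r j)) : PVal P (qm Q m₁ z₁ r₁) (qm Q m z r) := by
  have h := pval_qL (P := P) (Q := Q) hz hr
  unfold qm cm
  exact (((pval_C (hm 0)).mul ((h 2).mul (h 3))).add ((pval_C (hm 1)).mul ((h 1).mul (h 3)))).add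
    ((pval_C (hm 2)).mul ((h 1).mul (h 2)))

end val

section octic

variable {K K' N : Type} [Field K] [Algebra ℂ K] [Field K'] [Algebra ℂ K'] [Field N]
  [Algebra ℂ N] [IsAlgClosed N] {Q : Web} {x : Fin 4 → K}

/-- **The eight points of a line.** -/
theorem rs_octic (hx : C8.IsFF Q x) (κ : K' →ₐ[ℂ] K) (m : ℤ) (hcl : ∃ A B : Fin 4 → ℂ,
    st (qq Q B) ≠ 0 ∧ ∃ t : Fin 8 → ℂ, Function.Injective t ∧ ∀ i, st (qq Q (A + t i • B)) = 0)
    (z r : Fin 4 → N) (hr : st (qq Q r) ≠ 0)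
    (hg : ∀ t : N, st (qq Q (z + t • r)) = 0 → GenW Q (z + t • r)) :
    RS x z r (st (qL Q z r)) ∈ RH κ m N := by
  classical
  obtain ⟨A, B, hB, τ, hτ, hAB⟩ := hcl
  obtain ⟨e, he⟩ : ∃ e, e = epsVar N := ⟨_, rfl⟩
  obtain ⟨P0, hP0⟩ := exists_eps (N := N) 0
  obtain ⟨P1, hP1⟩ := exists_eps (N := N) 1
  rw [← he] at hP0 hP1
  obtain ⟨A', hA'⟩ : ∃ A' : Fin 4 → N, A' = fun j => algebraMap ℂ N (A j) := ⟨_, rfl⟩
  obtain ⟨B', hB'⟩ : ∃ B' : Fin 4 → N, B' = fun j => algebraMap ℂ N (B j) := ⟨_, rfl⟩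
  obtain ⟨z₁, hz₁⟩ : ∃ z₁ : Fin 4 → EpsField N, z₁ = fun j => (1 - e) * algebraMap N _ (z j) +
    e * algebraMap N _ (A' j) := ⟨_, rfl⟩
  obtain ⟨r₁, hr₁⟩ : ∃ r₁ : Fin 4 → EpsField N, r₁ = fun j => (1 - e) * algebraMap N _ (r j) +
    e * algebraMap N _ (B' j) := ⟨_, rfl⟩
  have vz0 : ∀ j, P0.Val (z₁ j) (z j) := by
    intro j
    have h1 := ((P0.val_one.sub hP0).mul (P0.val_const (z j))).add (hP0.mul (P0.val_const (A' j)))
    rw [sub_zero, one_mul, zero_mul, add_zero] at h1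
    rw [hz₁]
    exact h1
  have vr0 : ∀ j, P0.Val (r₁ j) (r j) := by
    intro j
    have h1 := ((P0.val_one.sub hP0).mul (P0.val_const (r j))).add (hP0.mul (P0.val_const (B' j)))
    rw [sub_zero, one_mul, zero_mul, add_zero] at h1
    rw [hr₁]
    exact h1
  have vz1 : ∀ j, P1.Val (z₁ j) (A' j) := by
    intro j
    have h1 := ((P1.val_one.sub hP1).mul (P1.val_const (z j))).add (hP1.mul (P1.val_const (A' j)))
    rw [sub_self, one_mul, zero_mul, zero_add] at h1
    rw [hz₁]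
    exact h1
  have vr1 : ∀ j, P1.Val (r₁ j) (B' j) := by
    intro j
    have h1 := ((P1.val_one.sub hP1).mul (P1.val_const (r j))).add (hP1.mul (P1.val_const (B' j)))
    rw [sub_self, one_mul, zero_mul, zero_add] at h1
    rw [hr₁]
    exact h1
  have v0 := pval_st (pval_qL (Q := Q) vz0 vr0)
  have v1 := pval_st (pval_qL (Q := Q) vz1 vr1)
  obtain ⟨t₁, t, ht, hF₁, hF⟩ := v0.roots (natDegree_st_qL Q z₁ r₁) (by
    rw [coeff_st_qL]
    exact hr)
  have hstB : st (qq Q B') ≠ 0 := by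
    have h1 := map_st_qq Q (Algebra.ofId ℂ N) B
    rw [hB']
    change st (qq Q (fun j => (Algebra.ofId ℂ N) (B j))) ≠ 0
    rw [← h1]
    intro h2
    exact hB ((algebraMap ℂ N).injective (by rw [map_zero]; exact h2))
  have hst₁ : ∀ i, st (qq Q (z₁ + t₁ i • r₁)) = 0 := by
    intro i
    rw [← eval_st_qL, hF₁, eval_mul, eval_prod, Finset.prod_eq_zero (Finset.mem_univ i), mul_zero]
    simp
  have hst : ∀ i, st (qq Q (z + t i • r)) = 0 := by
    intro i
    rw [← eval_st_qL, hF, eval_mul, eval_prod, Finset.prod_eq_zero (Finset.mem_univ i), mul_zero]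
    simp
  -- the roots are different
  have hinj : Function.Injective t₁ := by
    have h1 : ∀ i, ∃ a, P1.Val (t₁ i) a := by
      intro i
      refine finite_root v1 (natDegree_st_qL Q z₁ r₁) (d := 8) ?_ ?_
      · rw [coeff_st_qL]
        exact hstB
      · rw [eval_st_qL, hst₁]
    choose s hs using h1
    have h2 : PVal P1 (C ((st (qL Q z₁ r₁)).coeff 8) * ∏ i, (X - C (t₁ i)))
        (C ((st (qL Q A' B')).coeff 8) * ∏ i, (X - C (s i))) :=
      (pval_C (v1 8)).mul (PVal.prod _ fun i _ => pval_X.sub (pval_C (hs i)))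
    rw [← hF₁] at h2
    have h3 := v1.unique h2
    have h4 : ∀ k, ∃ i, s i = algebraMap ℂ N (τ k) := by
      intro k
      have h5 : (st (qL Q A' B')).eval (algebraMap ℂ N (τ k)) = 0 := by
        rw [eval_st_qL]
        have h6 := map_st_qq Q (Algebra.ofId ℂ N) (A + τ k • B)
        rw [hAB, map_zero] at h6
        have h7 : A' + (algebraMap ℂ N (τ k)) • B' =
            fun j => (Algebra.ofId ℂ N) ((A + τ k • B) j) := by
          funext j
          rw [hA', hB']
          simp only [Pi.add_apply, Pi.smul_apply, smul_eq_mul, map_add, map_mul]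
          rfl
        rw [h7, ← h6]
      rw [h3, eval_mul, eval_C, eval_prod, coeff_st_qL] at h5
      obtain ⟨i, -, hi⟩ := Finset.prod_eq_zero_iff.1 ((mul_eq_zero.1 h5).resolve_left hstB)
      rw [eval_sub, eval_X, eval_C, sub_eq_zero] at hi
      exact ⟨i, hi.symm⟩
    choose σ hσ using h4
    have hσi : Function.Injective σ := by
      intro k l hkl
      apply hτ
      apply (algebraMap ℂ N).injective
      rw [← hσ k, ← hσ l, hkl]
    have hσs := (Finite.injective_iff_surjective.1 hσi)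
    intro i j hij
    obtain ⟨k, rfl⟩ := hσs i
    obtain ⟨l, rfl⟩ := hσs j
    have h5 : s (σ k) = s (σ l) := (hs (σ k)).unique (by rw [hij]; exact hs (σ l))
    rw [hσ, hσ] at h5
    rw [hτ ((algebraMap ℂ N).injective h5)]
  have hval : ∀ i j, P0.Val ((z₁ + t₁ i • r₁) j) ((z + t i • r) j) := by
    intro i j
    simp only [Pi.add_apply, Pi.smul_apply, smul_eq_mul]
    exact (vz0 j).add ((ht i).mul (vr0 j))
  have hgen : ∀ i, GenW Q (z + t i • r) := fun i => hg _ (hst i)
  have hgen₁ : ∀ i, GenW Q (z₁ + t₁ i • r₁) := fun i =>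
    GenW.of_val (hval i) (hgen i) (hst₁ i)
  have h8 := line8 (m := m) hx z₁ r₁ (by
    have h1 := v0 8
    rw [coeff_st_qL, coeff_st_qL] at h1
    exact h1.ne_zero hr) t₁ hinj hgen₁
  have h9 := RH.of_plc (P := P0) hx (κ := κ) (m := m) 1 hval hgen hgen₁ (by
    rw [one_smul]
    exact RH.of_rel h8)
  rw [one_smul] at h9
  rw [RS_factor z r (a := (st (qL Q z r)).coeff 8) (by rw [coeff_st_qL]; exact hr) hF]
  exact h9

end octic

end Vale.Agent.P297.H212.Camp
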