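import Vale.Agent.P297.H777.Octic
import Vale.Agent.P297.H72.Plc

/-!
Sums of points over the roots of a polynomial, and their specialisation along a place.
-/

set_option linter.unusedSectionVars false

open IntermediateField Polynomial

namespace Vale.Agent.P297.H212.Camp

open Vale.Agent.P297 Vale.Agent.P297.C8 Vale.Agent.P297.H72

section pval

variable {N N₁ : Type} [Field N] [Field N₁] [Algebra N N₁] {P : Plc N N₁}

/-- the coefficients are finite with the given values -/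
def PVal (P : Plc N N₁) (F₁ : N₁[X]) (F : N[X]) : Prop := ∀ n, P.Val (F₁.coeff n) (F.coeff n)

theorem PVal.add {F₁ G₁ : N₁[X]} {F G : N[X]} (h : PVal P F₁ F) (h' : PVal P G₁ G) :
    PVal P (F₁ + G₁) (F + G) := fun n => by
  rw [coeff_add, coeff_add]
  exact (h n).add (h' n)

theorem PVal.sub {F₁ G₁ : N₁[X]} {F G : N[X]} (h : PVal P F₁ F) (h' : PVal P G₁ G) :
    PVal P (F₁ - G₁) (F - G) := fun n => by
  rw [coeff_sub, coeff_sub]
  exact (h n).sub (h' n)

theorem PVal.mul {F₁ G₁ : N₁[X]} {F G : N[X]} (h : PVal P F₁ F) (h' : PVal P G₁ G) :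
    PVal P (F₁ * G₁) (F * G) := fun n => by
  rw [coeff_mul, coeff_mul]
  exact Plc.Val.sum _ fun i _ => (h _).mul (h' _)

theorem pval_zero : PVal P (0 : N₁[X]) 0 := fun n => by
  rw [coeff_zero, coeff_zero]
  exact P.val_zero

theorem pval_C {a₁ : N₁} {a : N} (h : P.Val a₁ a) : PVal P (C a₁) (C a) := fun n => by
  rw [coeff_C, coeff_C]
  split_ifs
  · exact h
  · exact P.val_zero

theorem pval_X : PVal P (X : N₁[X]) X := fun n => by
  rw [coeff_X, coeff_X]
  split_ifs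
  · exact P.val_one
  · exact P.val_zero

theorem pval_one : PVal P (1 : N₁[X]) 1 := by
  rw [← C_1, ← C_1]
  exact pval_C P.val_one

theorem PVal.pow {F₁ : N₁[X]} {F : N[X]} (h : PVal P F₁ F) (n : ℕ) :
    PVal P (F₁ ^ n) (F ^ n) := by
  induction n with
  | zero =>
    rw [pow_zero, pow_zero]
    exact pval_one
  | succ n ih =>
    rw [pow_succ, pow_succ]
    exact ih.mul h

theorem pval_two : PVal P (2 : N₁[X]) 2 := by
  have h1 : (2 : N₁[X]) = 1 + 1 := by norm_num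
  have h2 : (2 : N[X]) = 1 + 1 := by norm_num
  rw [h1, h2]
  exact pval_one.add pval_one

theorem PVal.prod {ι : Type} (s : Finset ι) {F₁ : ι → N₁[X]} {F : ι → N[X]}
    (h : ∀ i ∈ s, PVal P (F₁ i) (F i)) : PVal P (∏ i ∈ s, F₁ i) (∏ i ∈ s, F i) := by
  classical
  induction s using Finset.induction_on with
  | empty => exact pval_one
  | insert i s hi ih =>
    rw [Finset.prod_insert hi, Finset.prod_insert hi]
    exact (h i (Finset.mem_insert_self _ _)).mul
      (ih fun k hk => h k (Finset.mem_insert_of_mem hk))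

theorem PVal.unique {F₁ : N₁[X]} {F G : N[X]} (h : PVal P F₁ F) (h' : PVal P F₁ G) : F = G := by
  ext n
  exact (h n).unique (h' n)

theorem PVal.eval {F₁ : N₁[X]} {F : N[X]} (h : PVal P F₁ F) {x : N₁} {a : N} (hx : P.Val x a) :
    P.Val (F₁.eval x) (F.eval a) := by
  have h1 : F₁.eval x = ∑ i ∈ Finset.range (max F₁.natDegree F.natDegree + 1),
      F₁.coeff i * x ^ i :=
    Polynomial.eval_eq_sum_range' (Nat.lt_succ_of_le (le_max_left _ _)) x
  have h2 : F.eval a = ∑ i ∈ Finset.range (max F₁.natDegree F.natDegree + 1),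
      F.coeff i * a ^ i :=
    Polynomial.eval_eq_sum_range' (Nat.lt_succ_of_le (le_max_right _ _)) a
  rw [h1, h2]
  exact Plc.Val.sum _ fun i _ => (h i).mul (hx.pow i)

/-- A root of a polynomial with unit leading coefficient is finite. -/
theorem finite_root {F₁ : N₁[X]} {F : N[X]} (h : PVal P F₁ F) {d : ℕ} (hd : F₁.natDegree ≤ d)
    (h0 : F.coeff d ≠ 0) {t : N₁} (ht : F₁.eval t = 0) : ∃ a, P.Val t a := by
  by_cases ht0 : t = 0
  · exact ⟨0, by rw [ht0]; exact P.val_zero⟩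
  rcases P.val_or t with h1 | h1
  · exact h1
  exfalso
  have h2 : ∑ i ∈ Finset.range (d + 1), F₁.coeff i * t⁻¹ ^ (d - i) = 0 := by
    have h3 : F₁.eval t = ∑ i ∈ Finset.range (d + 1), F₁.coeff i * t ^ i :=
      Polynomial.eval_eq_sum_range' (Nat.lt_succ_of_le hd) t
    have h4 : ∑ i ∈ Finset.range (d + 1), F₁.coeff i * t⁻¹ ^ (d - i) =
        t⁻¹ ^ d * F₁.eval t := by
      rw [h3, Finset.mul_sum]
      refine Finset.sum_congr rfl fun i hi => ?_
      have h5 : i ≤ d := Nat.lt_succ_iff.1 (Finset.mem_range.1 hi)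
      have h6 : t⁻¹ ^ d = t⁻¹ ^ (d - i) * t⁻¹ ^ i := by
        rw [← pow_add, Nat.sub_add_cancel h5]
      rw [h6]
      have h7 : t⁻¹ ^ i * t ^ i = 1 := by rw [← mul_pow, inv_mul_cancel₀ ht0, one_pow]
      linear_combination (-(F₁.coeff i * t⁻¹ ^ (d - i))) * h7
    rw [h4, ht, mul_zero]
  have h3 : P.Val (∑ i ∈ Finset.range (d + 1), F₁.coeff i * t⁻¹ ^ (d - i))
      (∑ i ∈ Finset.range (d + 1), F.coeff i * (0 : N) ^ (d - i)) :=
    Plc.Val.sum _ fun i _ => (h i).mul (h1.pow _)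
  rw [h2] at h3
  have h4 := P.val_zero.unique h3
  rw [Finset.sum_range_succ, Nat.sub_self, pow_zero, mul_one, Finset.sum_eq_zero, zero_add] at h4
  · exact h0 h4.symm
  · intro i hi
    have h5 : d - i ≠ 0 := Nat.sub_ne_zero_of_lt (Finset.mem_range.1 hi)
    rw [zero_pow h5, mul_zero]

/-- The factorisation of a polynomial. -/
theorem exists_factor [IsAlgClosed N] {F : N[X]} {d : ℕ} (hd : F.natDegree ≤ d)
    (h0 : F.coeff d ≠ 0) : ∃ t : Fin d → N, F = C (F.coeff d) * ∏ i, (X - C (t i)) := by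
  have h1 : F.natDegree = d := le_antisymm hd (Polynomial.le_natDegree_of_ne_zero h0)
  have h2 := (IsAlgClosed.splits F).eq_prod_roots
  have h3 : F.roots.card = d := by
    rw [← h1]
    exact IsAlgClosed.card_roots_eq_natDegree
  obtain ⟨l, hl⟩ := Quot.exists_rep F.roots
  have hl' : F.roots = (l : Multiset N) := hl.symm
  have hlen : l.length = d := by
    rw [← h3, hl']
    rfl
  subst hlen
  refine ⟨fun i => l.get i, ?_⟩
  have h4 : F.leadingCoeff = F.coeff l.length := by rw [leadingCoeff, h1]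
  rw [← h4]
  conv_lhs => rw [h2]
  congr 1
  rw [hl', Multiset.map_coe, Multiset.prod_coe]
  have h5 : (∏ i, (X - C (l.get i)) : N[X]) = (List.ofFn fun i => X - C (l.get i)).prod := by
    rw [List.prod_ofFn]
  rw [h5]
  congr 1
  have h6 : List.map (fun a : N => (X - C a : N[X])) (List.ofFn l.get) =
      List.ofFn ((fun a : N => (X - C a : N[X])) ∘ l.get) := List.map_ofFn
  rw [List.ofFn_get] at h6
  exact h6

/-- **Specialisation of the roots.** -/
theorem PVal.roots [IsAlgClosed N₁] {F₁ : N₁[X]} {F : N[X]} (h : PVal P F₁ F) {d : ℕ}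
    (hd : F₁.natDegree ≤ d) (h0 : F.coeff d ≠ 0) : ∃ (t₁ : Fin d → N₁) (t : Fin d → N),
      (∀ i, P.Val (t₁ i) (t i)) ∧ F₁ = C (F₁.coeff d) * ∏ i, (X - C (t₁ i)) ∧
        F = C (F.coeff d) * ∏ i, (X - C (t i)) := by
  obtain ⟨t₁, ht₁⟩ := exists_factor hd ((h d).ne_zero h0)
  have h1 : ∀ i, ∃ a, P.Val (t₁ i) a := by
    intro i
    refine finite_root h hd h0 ?_
    rw [ht₁, eval_mul, eval_prod, Finset.prod_eq_zero (Finset.mem_univ i), mul_zero]
    simp
  choose t ht using h1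
  refine ⟨t₁, t, ht, ht₁, ?_⟩
  have h2 : PVal P (C (F₁.coeff d) * ∏ i, (X - C (t₁ i))) (C (F.coeff d) * ∏ i, (X - C (t i))) :=
    (pval_C (h d)).mul (PVal.prod _ fun i _ => pval_X.sub (pval_C (ht i)))
  rw [← ht₁] at h2
  exact h.unique h2

end pval

section rs

variable {K K' N N₁ : Type} [Field K] [Algebra ℂ K] [Field K'] [Algebra ℂ K'] [Field N]
  [Algebra ℂ N] [Field N₁] [Algebra ℂ N₁] {Q : Web} {x : Fin 4 → K}

/-- the sum of the points over the roots -/
noncomputable def RS (x : Fin 4 → K) (z r : Fin 4 → N) (F : N[X]) : (K →ₐ[ℂ] N) →₀ ℤ :=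
  (F.roots.map fun t => C8.pt x (z + t • r)).sum

theorem RS_mul (z r : Fin 4 → N) {F G : N[X]} (h : F * G ≠ 0) :
    RS x z r (F * G) = RS x z r F + RS x z r G := by
  unfold RS
  rw [roots_mul h, Multiset.map_add, Multiset.sum_add]

theorem RS_C_mul (z r : Fin 4 → N) (F : N[X]) {a : N} (ha : a ≠ 0) :
    RS x z r (C a * F) = RS x z r F := by
  unfold RS
  rw [roots_C_mul _ ha]

theorem RS_linear (z r : Fin 4 → N) (a : N) : RS x z r (X - C a) = C8.pt x (z + a • r) := by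
  unfold RS
  rw [roots_X_sub_C, Multiset.map_singleton, Multiset.sum_singleton]

theorem RS_prod (z r : Fin 4 → N) {ι : Type} (s : Finset ι) (t : ι → N) :
    RS x z r (∏ i ∈ s, (X - C (t i))) = ∑ i ∈ s, C8.pt x (z + t i • r) := by
  classical
  induction s using Finset.induction_on with
  | empty => simp [RS]
  | insert i s hi ih =>
    rw [Finset.prod_insert hi, Finset.sum_insert hi, RS_mul, RS_linear, ih]
    exact mul_ne_zero (X_sub_C_ne_zero _)
      (Finset.prod_ne_zero_iff.2 fun i _ => X_sub_C_ne_zero _)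

theorem RS_factor (z r : Fin 4 → N) {d : ℕ} {F : N[X]} {a : N} (ha : a ≠ 0) {t : Fin d → N}
    (h : F = C a * ∏ i, (X - C (t i))) : RS x z r F = ∑ i, C8.pt x (z + t i • r) := by
  rw [h, RS_C_mul _ _ _ ha, RS_prod]

/-- The relations between points of the quotient. -/
noncomputable def RH (κ : K' →ₐ[ℂ] K) (m : ℤ) (N : Type) [Field N] [Algebra ℂ N] :
    AddSubgroup ((K →ₐ[ℂ] N) →₀ ℤ) :=
  (Rel m K' N).comap (Finsupp.mapDomain.addMonoidHom (fun φ : K →ₐ[ℂ] N => φ.comp κ))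

theorem mem_RH {κ : K' →ₐ[ℂ] K} {m : ℤ} {v : (K →ₐ[ℂ] N) →₀ ℤ} :
    v ∈ RH κ m N ↔ Finsupp.mapDomain (fun φ : K →ₐ[ℂ] N => φ.comp κ) v ∈ Rel m K' N := Iff.rfl

theorem RH.of_rel {κ : K' →ₐ[ℂ] K} {m : ℤ} {v : (K →ₐ[ℂ] N) →₀ ℤ} (h : v ∈ Rel m K N) :
    v ∈ RH κ m N := Rel.precomp κ h

theorem RH.map {κ : K' →ₐ[ℂ] K} {m : ℤ} (μ : N →ₐ[ℂ] N₁) {v : (K →ₐ[ℂ] N) →₀ ℤ}
    (h : v ∈ RH κ m N) : Finsupp.mapDomain (fun φ : K →ₐ[ℂ] N => μ.comp φ) v ∈ RH κ m N₁ := by
  rw [mem_RH] at h ⊢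
  have h1 := Rel.map μ h
  rw [← Finsupp.mapDomain_comp] at h1 ⊢
  exact h1

variable [Algebra N N₁] [IsScalarTower ℂ N N₁] {P : Plc N N₁}

/-- Generic points lift to generic points. -/
theorem GenW.of_val {o₁ : Fin 4 → N₁} {o : Fin 4 → N} (h : ∀ j, P.Val (o₁ j) (o j))
    (ho : GenW Q o) (h0 : st (qq Q o₁) = 0) : GenW Q o₁ := by
  refine ⟨h0, (h 0).ne_zero ho.ne, ?_⟩
  obtain ⟨i, j, hij⟩ := ho.ind
  refine ⟨i, j, ?_⟩
  rw [algebraicIndependent_iff] at hij ⊢
  intro f hf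
  apply hij
  have h1 : ∀ k, P.Val ((![o₁ i / o₁ 0, o₁ j / o₁ 0] : Fin 2 → N₁) k)
      ((![o i / o 0, o j / o 0] : Fin 2 → N) k) := by
    intro k
    fin_cases k
    · exact (h i).div (h 0) ho.ne
    · exact (h j).div (h 0) ho.ne
  have h2 : ∀ f : MvPolynomial (Fin 2) ℂ,
      P.Val (MvPolynomial.aeval (![o₁ i / o₁ 0, o₁ j / o₁ 0] : Fin 2 → N₁) f)
        (MvPolynomial.aeval (![o i / o 0, o j / o 0] : Fin 2 → N) f) := by
    intro f
    induction f using MvPolynomial.induction_on with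
    | C a =>
      rw [MvPolynomial.aeval_C, MvPolynomial.aeval_C, IsScalarTower.algebraMap_apply ℂ N N₁]
      exact P.val_const _
    | add p q hp hq => rw [map_add, map_add]; exact hp.add hq
    | mul_X p k hp =>
      rw [map_mul, map_mul, MvPolynomial.aeval_X, MvPolynomial.aeval_X]
      exact hp.mul (h1 k)
  have h3 := h2 f
  rw [hf] at h3
  exact h3.unique P.val_zero

/-- **Specialisation of a relation between generic points.** -/
theorem RH.of_plc (hx : C8.IsFF Q x) {κ : K' →ₐ[ℂ] K} {m : ℤ} {ι : Type} [Fintype ι] (n : ℤ)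
    {o₁ : ι → Fin 4 → N₁} {o : ι → Fin 4 → N} (h : ∀ k j, P.Val (o₁ k j) (o k j))
    (ho : ∀ k, GenW Q (o k)) (h0 : ∀ k, GenW Q (o₁ k))
    (hrel : n • ∑ k, C8.pt x (o₁ k) ∈ RH κ m N₁) : n • ∑ k, C8.pt x (o k) ∈ RH κ m N := by
  choose φ hφ hp using fun k => (ho k).exists_pt hx
  choose φ₁ hφ₁ hp₁ using fun k => (h0 k).exists_pt hx
  simp only [hp₁, hp, Finset.smul_sum, Finsupp.smul_single, smul_eq_mul, mul_one] at hrel ⊢
  rw [mem_RH, Finsupp.mapDomain_finsetSum] at hrel ⊢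
  simp only [Finsupp.mapDomain_single] at hrel ⊢
  refine Rel.of_plc P (fun _ => n) (fun k => (φ₁ k).comp κ) (fun k => (φ k).comp κ)
    (s := Set.univ) (by
      rw [eq_top_iff]
      intro a _
      exact IntermediateField.subset_adjoin ℂ _ trivial) ?_ hrel
  intro k y _
  refine P.val_of_gens hx.top ?_ (κ y)
  rintro _ ⟨j, rfl⟩
  rw [hφ, hφ₁]
  exact (h k j).div (h k 0) (ho k).ne

end rs

end Vale.Agent.P297.H212.Camp
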